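import Vale.Agent.P214.INTW.Stmt

/-!
# P214, block INT-W: `WIN.IntWStmt` proved
-/

open MeasureTheory Set Filter Topology Metric
open scoped ENNReal NNReal RealInnerProductSpace ContDiff

set_option linter.all false

namespace Vale.Agent.P214.INTW

open Vale.Agent.P214 Vale.Agent.P214.FV Vale.Agent.P214.AREA Vale.Agent.P214.KMS

/-- the constant of the trivial bound -/
noncomputable def L0 (m Q : ℕ) : ℝ :=
  Q * Skel.om m + 1 + Q * (arC m * (2 * cg m * 2 ^ m))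

lemma om_nonneg (m : ℕ) : 0 ≤ Skel.om m := ENNReal.toReal_nonneg

lemma L0_pos (m Q : ℕ) : 0 < L0 m Q := by
  have := om_nonneg m
  have := arC_pos m
  have := cg_pos m
  unfold L0
  positivity

/-- the smallness constant -/
lemma exists_eps (m n : ℕ) {c ε₁ A₀ g : ℝ} (hc : 0 < c) (hε₁ : 0 < ε₁) (hA₀ : 0 < A₀) (hg : 0 < g) :
    ∃ ε : ℝ, 0 < ε ∧ ε ≤ 1 ∧ n * ε ≤ c ∧ 4 * m * (n * ε) ^ 2 ≤ ε₁ ∧ A₀ * ε / g ≤ 1 / 3 := by
  set ε : ℝ := min (min 1 (c / (n + 1))) (min (ε₁ / (4 * m * (n + 1) ^ 2 + 1)) (g / (3 * A₀)))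
    with hε
  have hε0 : 0 < ε := lt_min (lt_min one_pos (by positivity)) (lt_min (by positivity)
    (by positivity))
  have a1 : ε ≤ 1 := (min_le_left _ _).trans (min_le_left _ _)
  refine ⟨ε, hε0, a1, ?_, ?_, ?_⟩
  · have h1 : ε ≤ c / (n + 1) := (min_le_left _ _).trans (min_le_right _ _)
    rw [le_div_iff₀ (by positivity)] at h1
    linarith
  · have h1 : ε ≤ ε₁ / (4 * m * (n + 1) ^ 2 + 1) := (min_le_right _ _).trans (min_le_left _ _)
    rw [le_div_iff₀ (by positivity)] at h1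
    calc 4 * m * (n * ε) ^ 2 = 4 * m * n ^ 2 * (ε * ε) := by ring
      _ ≤ 4 * m * (n + 1) ^ 2 * (ε * 1) := by gcongr; linarith
      _ ≤ ε * (4 * m * (n + 1) ^ 2 + 1) := by linarith
      _ ≤ ε₁ := h1
  · have h1 : ε ≤ g / (3 * A₀) := (min_le_right _ _).trans (min_le_right _ _)
    rw [le_div_iff₀ (by positivity)] at h1
    rw [div_le_iff₀ hg]
    linarith

lemma arith_cubes (m : ℕ) {r θ : ℝ} (hθ : 0 < θ) (hθ1 : 1 ≤ θ⁻¹) (hr : r - θ ≤ 1) :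
    2 * ((r - θ) / (θ / 64 / ((m:ℝ) + 1))) + 3 ≤ 131 * (m + 1) * θ⁻¹ := by
  have h2 : (r - θ) / (θ / 64 / ((m:ℝ) + 1)) = (r - θ) * (64 * (m + 1) * θ⁻¹) := by
    field_simp
  rw [h2]
  have hm : (0:ℝ) ≤ m := by positivity
  have h5 : (1:ℝ) ≤ (m + 1) * θ⁻¹ := by nlinarith
  have h3 : (r - θ) * (64 * (m + 1) * θ⁻¹) ≤ 1 * (64 * (m + 1) * θ⁻¹) := by
    gcongr
  linarith

variable {E : Type*} [NormedAddCommGroup E] [InnerProductSpace ℝ E] [FiniteDimensional ℝ E]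
  [MeasurableSpace E] [BorelSpace E] {m n Q : ℕ} {T : Submodule ℝ E} {h : ℝ} {z : E} {R ε r : ℝ}
  {ν : Measure E} {P : E → E →L[ℝ] E}

lemma near_r (hI : Skel.IntCyl m Q T 0 (3 / 8) h ε ν P) (hexc : Skel.exc T ν P 0 (3 / 8) ≤ ε)
    (hr1 : 1 / 16 ≤ r) (hr2 : r ≤ 3 / 16)
    (a4 : (36 * (3 / 8) * 256 ^ (m + 1) + 1) * ε / cg m ≤ 1 / 3) :
    |INT.htot m T (ν.restrict (Skel.cylSet T 0 (3 / 8))) 0 (2 * (r / 32)) / cg m - Q| ≤ 1 / 3 := by
  have hcg := cg_pos m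
  have h1 : (0:ℝ) < 2 * (r / 32) := by linarith
  have h2 : INT.htot m T (ν.restrict (Skel.cylSet T 0 (3 / 8))) 0 (2 * (r / 32))
      = INT.htot m T ν 0 (2 * (r / 32)) :=
    R2.htot_restrict T.zero_mem h1 (cylSet_sub (by linarith))
  rw [h2]
  refine (near0 hI h1 (by linarith)).trans (le_trans ?_ a4)
  have h3 : 36 * (3 / 8) / (2 * (r / 32)) ^ (m + 1) * Skel.exc T ν P 0 (3 / 8)
      ≤ 36 * (3 / 8) * 256 ^ (m + 1) * ε := by
    have h4 : (1:ℝ) / 256 ≤ 2 * (r / 32) := by linarith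
    have h5 : 36 * (3 / 8) / (2 * (r / 32)) ^ (m + 1) ≤ 36 * (3 / 8) / (1 / 256) ^ (m + 1) := by
      gcongr
    have h6 : (36 * (3 / 8) : ℝ) / (1 / 256) ^ (m + 1) = 36 * (3 / 8) * 256 ^ (m + 1) := by
      rw [one_div, inv_pow]; field_simp
    rw [h6] at h5
    have h7 := R2.exc_nonneg hI.cyl 0 (3 / 8)
    exact mul_le_mul h5 hexc h7 (by positivity)
  have h8 : (36 * (3 / 8) / (2 * (r / 32)) ^ (m + 1) * Skel.exc T ν P 0 (3 / 8) + ε)
      ≤ (36 * (3 / 8) * 256 ^ (m + 1) + 1) * ε := by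
    linarith
  gcongr

/-- statement on the base, small and large energy together -/
lemma intW_base (E : Type*) [NormedAddCommGroup E] [InnerProductSpace ℝ E]
    [FiniteDimensional ℝ E] [MeasurableSpace E] [BorelSpace E] (m n : ℕ) (Q : ℕ) :
    ∃ ε C : ℝ, 0 < ε ∧ n * ε ≤ 1 ∧ 0 ≤ C ∧ (m:ℝ) ≤ C ∧
    ∀ (T : Submodule ℝ E) (F : WIN.Frame m n T) (w : E → E) (r θ h : ℝ) (ν : Measure E)
    (P : E → E →L[ℝ] E) (S : Set E) (th : E → ℕ), KMS.Ref T w → (∀ y, ‖fderiv ℝ w y‖ ≤ n * ε) →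
    1 / 16 ≤ r → r ≤ 3 / 16 → 0 < θ → θ ≤ 1 / 640 → Skel.IntCyl m Q T 0 (3 / 8) h ε ν P →
    Skel.exc T ν P 0 (3 / 8) ≤ ε →
    INT.IntCyl m T (ball 0 (3 / 8)) h (ν.restrict (Skel.cylSet T 0 (3 / 8))) P S th
        (fun y => jac (proj T) (P y)) →
    ∀ (ψ : E → ℝ) (M : ℝ), Measurable ψ →
      (∀ x ∈ T, r - θ ≤ ‖x‖ → ψ x = 0) → (∀ x ∈ T, |ψ x| ≤ M) →
      |∫ y, ψ (T.starProjection y) ∂(ν.restrict (Skel.cylSet T 0 (3 / 8)))
          - Q * ∫ x in (T : Set E), ψ x * ar (fderiv ℝ w x) ∂μH[m]|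
        ≤ C * (θ⁻¹) ^ m * M * ∫ y in INT.cyl T 0 r, (eg T w P y + √(eg T w P y))
          ∂(ν.restrict (Skel.cylSet T 0 (3 / 8))) := by
  obtain ⟨δ, c, C₁, hδ, hc, hc1, hC₁, HW⟩ := intW_win E m Q
  obtain ⟨ε₁, hε₁, HC⟩ := chain_win (E := E) m Q hδ
  have hcg := cg_pos m
  have hL0 := L0_pos m Q
  obtain ⟨ε, hε0, a1, a2, a3, a4⟩ := exists_eps m n hc hε₁
    (by positivity : (0:ℝ) < 36 * (3 / 8) * 256 ^ (m + 1) + 1) hcg
  set C : ℝ := m + (131 * (m + 1)) ^ m * C₁ + 4 * L0 m Q * 64 ^ m / ε₁ with hC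
  have b0 : (0:ℝ) ≤ m := by positivity
  have b1 : 0 ≤ (131 * ((m:ℝ) + 1)) ^ m * C₁ := by positivity
  have b2 : 0 ≤ 4 * L0 m Q * 64 ^ m / ε₁ := by positivity
  have hmC : (m:ℝ) ≤ C := by linarith
  have hC2 : (131 * ((m:ℝ) + 1)) ^ m * C₁ ≤ C := by linarith
  have hC3 : 4 * L0 m Q * 64 ^ m / ε₁ ≤ C := by linarith
  have hC0 : 0 ≤ C := b0.trans hmC
  clear_value C
  refine ⟨ε, C, hε0, a2.trans hc1, hC0, hmC, ?_⟩
  intro T F w r θ h ν P S th hw hDw hr1 hr2 hθ hθ2 hI hexc hint ψ M hψ hψ0 hψM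
  have hM0 : 0 ≤ M := (abs_nonneg _).trans (hψM 0 T.zero_mem)
  haveI hfin : IsFiniteMeasure ν := hI.cyl.fin
  have hr0 : 0 < r := by linarith
  have hDw1 : ∀ y, ‖fderiv ℝ w y‖ ≤ 1 := fun y => (hDw y).trans (a2.trans hc1)
  have hT : Module.finrank ℝ T = m := hI.cyl.dimT
  set A0 : Set E := Skel.cylSet T 0 (3 / 8) with hA0
  have hnear := near_r hI hexc hr1 hr2 a4
  rw [← hA0] at hnear
  have hV : (ν.restrict A0).real univ ≤ Q * Skel.om m + 1 := by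
    have h1 := hI.mass
    rw [measureReal_restrict_apply_univ]
    have h3 := (abs_le.1 h1).2
    have h4 : ((3:ℝ) / 8) ^ m ≤ 1 := pow_le_one₀ (by norm_num) (by norm_num)
    have h5 : (0:ℝ) ≤ (3 / 8) ^ m := by positivity
    have h6 := om_nonneg m
    have h7 : Q * Skel.om m * (3 / 8) ^ m ≤ Q * Skel.om m * 1 := by gcongr
    have h8 : ε * (3 / 8) ^ m ≤ 1 * 1 := by gcongr
    linarith
  set ν' : Measure E := ν.restrict A0 with hν'
  have hCS := hint.stat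
  haveI := hCS.fin
  have hm1 : MeasurableSet (INT.cyl T 0 r) := INTM.isOpen_cyl.measurableSet
  have hei : IntegrableOn (eg T w P) (INT.cyl T 0 r) ν' :=
    integrableOn_eg hCS hw hm1 fun y _ => hDw1 y
  have hsi : IntegrableOn (fun y => √(eg T w P y)) (INT.cyl T 0 r) ν' :=
    integrableOn_sqrt_eg hCS hw hm1 fun y _ => hDw1 y
  set J := ∫ y in INT.cyl T 0 r, (eg T w P y + √(eg T w P y)) ∂ν' with hJ
  have hJ2 : J = ∫ y in INT.cyl T 0 r, eg T w P y ∂ν'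
      + ∫ y in INT.cyl T 0 r, √(eg T w P y) ∂ν' := integral_add hei hsi
  set I := ∫ y in INT.cyl T 0 r, eg T w P y ∂ν' with hIdef
  have hI0 : 0 ≤ I := integral_nonneg fun y => eg_nonneg T w P y
  have hI20 : 0 ≤ ∫ y in INT.cyl T 0 r, √(eg T w P y) ∂ν' :=
    integral_nonneg fun y => Real.sqrt_nonneg _
  have hIJ : I ≤ J := by linarith
  have hJ0 : 0 ≤ J := hI0.trans hIJ
  have hθ1 : 1 ≤ θ⁻¹ := by
    rw [one_le_inv₀ hθ]; linarith
  have hθ0 : 0 ≤ θ⁻¹ := by linarith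
  rcases le_or_gt (4 * I) (ε₁ * (θ / 64) ^ m) with hcase | hcase
  · -- small energy
    have hρ : 0 < θ / 64 := by positivity
    have hchn : Chn m T (ball 0 (3 / 8)) h ν' P S th (fun y => jac (proj T) (P y)) 0 r
        (4 * m * (n * ε) ^ 2) (fun y => 4 * eg T w P y) :=
      chn_of hint hw (a2.trans hc1) (by positivity) hDw hr0 (ball_subset_ball (by linarith))
    have hWin := HC T (ball 0 (3 / 8)) h ν' P S th _ 0 r (4 * m * (n * ε) ^ 2)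
      (fun y => 4 * eg T w P y) hchn a3 (θ / 64) hρ
      (by rw [integral_const_mul]; exact hcase) hnear
    have hmain := sum_cubes (Q := Q) (C₁ := C₁) (δ := δ) (c := c)
      (fun z r hW ψ M => HW T (ball 0 (3 / 8)) h ν' P S th z r hW w hw
        (fun y _ => (hDw y).trans a2) ψ M) hC₁.le hCS hw hDw1 F (ρ := θ / 64) (θ := θ) hρ
      (by linarith) (by linarith) (fun x hx hxr => hWin x hx (θ / 64) le_rfl hxr)
      hψ hψM hψ0
    refine hmain.trans ?_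
    have h1 := arith_cubes m (r := r) hθ hθ1 (by linarith)
    have h0 : 0 ≤ 2 * ((r - θ) / (θ / 64 / ((m:ℝ) + 1))) + 3 := by
      have : 0 ≤ (r - θ) / (θ / 64 / ((m:ℝ) + 1)) := div_nonneg (by linarith) (by positivity)
      linarith
    calc (2 * ((r - θ) / (θ / 64 / ((m:ℝ) + 1))) + 3) ^ m * (C₁ * M * J)
        ≤ (131 * (m + 1) * θ⁻¹) ^ m * (C₁ * M * J) :=
          mul_le_mul_of_nonneg_right (pow_le_pow_left₀ h0 h1 m) (by positivity)
      _ = ((131 * (m + 1)) ^ m * C₁) * ((θ⁻¹) ^ m * M * J) := by rw [mul_pow]; ring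
      _ ≤ C * ((θ⁻¹) ^ m * M * J) := mul_le_mul_of_nonneg_right hC2 (by positivity)
      _ = C * (θ⁻¹) ^ m * M * J := by ring
  · -- large energy
    have h1 := trivial_bound (Q := Q) F hT hw hDw1 hV hψ (R := r - θ) (by linarith) hψM hψ0
    refine h1.trans ?_
    have h2 : Q * Skel.om m + 1 + Q * (arC m * (2 * cg m * 2 ^ m)) = L0 m Q := rfl
    rw [h2]
    have h4 : 1 ≤ 4 * 64 ^ m / ε₁ * (θ⁻¹) ^ m * I := by
      rw [div_pow, mul_div_assoc', div_lt_iff₀ (by positivity)] at hcase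
      have h5 : 4 * 64 ^ m / ε₁ * (θ⁻¹) ^ m * I = (4 * I * 64 ^ m) / (ε₁ * θ ^ m) := by
        rw [inv_pow]; field_simp
      rw [h5, le_div_iff₀ (by positivity), one_mul]
      exact hcase.le
    have h3 : 1 ≤ 4 * 64 ^ m / ε₁ * (θ⁻¹) ^ m * J :=
      h4.trans (mul_le_mul_of_nonneg_left hIJ (by positivity))
    calc M * L0 m Q ≤ M * L0 m Q * (4 * 64 ^ m / ε₁ * (θ⁻¹) ^ m * J) :=
          le_mul_of_one_le_right (by positivity) h3
      _ = (4 * L0 m Q * 64 ^ m / ε₁) * ((θ⁻¹) ^ m * M * J) := by ring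
      _ ≤ C * ((θ⁻¹) ^ m * M * J) := mul_le_mul_of_nonneg_right hC3 (by positivity)
      _ = C * (θ⁻¹) ^ m * M * J := by ring

/-- **[INT-W]**, without the hypothesis on the height, Borel test functions -/
theorem intW_main (E : Type*) [NormedAddCommGroup E] [InnerProductSpace ℝ E]
    [FiniteDimensional ℝ E] [MeasurableSpace E] [BorelSpace E] (m n : ℕ) (Q : ℕ) :
    ∃ ε C : ℝ, 0 < ε ∧ 0 ≤ C ∧ ∀ (T : Submodule ℝ E) (F : WIN.Frame m n T)
    (u : Fin n → REF.E m → ℝ) (r θ h : ℝ) (ν : Measure E) (P : E → E →L[ℝ] E),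
    WIN.Refe ε r u →
    1 / 16 ≤ r → r ≤ 3 / 16 → 0 < θ → θ ≤ 1 / 640 → Skel.IntCyl m Q T 0 (3 / 8) h ε ν P →
    Skel.exc T ν P 0 (3 / 8) ≤ ε →
    ∀ (ψ : REF.E m → ℝ) (M : ℝ), Measurable ψ →
      (∀ x, r - θ ≤ ‖x‖ → ψ x = 0) → (∀ x, |ψ x| ≤ M) →
      |∫ y, ψ (F.xc y) ∂ν - Q * ∫ x, ψ x * √(REF.gm u x).det ∂μH[m]|
        ≤ C * θ⁻¹ ^ C * M * ∫ y in Skel.cylSet T 0 r, (FV.gsq (KMS.rel T (F.lift u)) (P y) y
          + √(FV.gsq (KMS.rel T (F.lift u)) (P y) y)) ∂ν := by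
  obtain ⟨ε, C, hε, hnε, hC, hmC, H⟩ := intW_base E m n Q
  refine ⟨ε, C, hε, hC, ?_⟩
  intro T F u r θ h ν P hu hr1 hr2 hθ hθ2 hI hexc ψ M hψ hψ0 hψM
  have hM0 : 0 ≤ M := (abs_nonneg _).trans (hψM 0)
  haveI hfin : IsFiniteMeasure ν := hI.cyl.fin
  obtain ⟨S, th, -, -, -, hint⟩ := AREA.intCyl_of_skel hI (A := univ)
    (Eventually.of_forall fun _ _ => mem_univ _)
  set w : E → E := F.lift u with hwdef
  have hw : KMS.Ref T w := COORD.kms_ref_lift F hu.smooth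
  have hDw : ∀ y, ‖fderiv ℝ w y‖ ≤ n * ε := fun y => Refe_fderiv hu y
  set ψ' : E → ℝ := fun x => ψ (F.xc x) with hψ'
  have hxc : Continuous F.xc := (xcL F).continuous
  have key := H T F w r θ h ν P S th hw hDw hr1 hr2 hθ hθ2 hI hexc hint ψ' M
    (hψ.comp hxc.measurable) (by
      intro x hx hxr
      refine hψ0 _ ?_
      rw [norm_xc, Submodule.starProjection_eq_self_iff.2 hx]; exact hxr) (fun x _ => hψM _)
  have e1 : ∫ y, ψ (F.xc y) ∂ν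
      = ∫ y, ψ' (T.starProjection y) ∂(ν.restrict (Skel.cylSet T 0 (3 / 8))) := by
    have h1 : ∀ y, ψ' (T.starProjection y) = ψ (F.xc y) := fun y => by
      rw [hψ']; simp only [xc_star]
    simp only [h1]
    refine (setIntegral_eq_integral_of_forall_compl_eq_zero fun y hy => ?_).symm
    refine hψ0 _ ?_
    rw [norm_xc]
    have h2 : ¬ T.starProjection y ∈ ball (0:E) (3 / 8) := hy
    rw [mem_ball, dist_zero_right, not_lt] at h2
    linarith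
  have e2 : ∫ x, ψ x * √(REF.gm u x).det ∂μH[m]
      = ∫ x in (T : Set E), ψ' x * ar (fderiv ℝ w x) ∂μH[m] := (integral_coord F hu ψ).symm
  have hrr : (ν.restrict (Skel.cylSet T 0 (3 / 8))).restrict (INT.cyl T 0 r)
      = ν.restrict (Skel.cylSet T 0 r) := by
    rw [R2.cyl_eq_cylSet T.zero_mem r, Measure.restrict_restrict (meas_cylSet T 0 r),
      inter_eq_self_of_subset_left (cylSet_sub (by linarith))]
  have e3 : ∫ y in Skel.cylSet T 0 r, (FV.gsq (KMS.rel T w) (P y) y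
          + √(FV.gsq (KMS.rel T w) (P y) y)) ∂ν
      = ∫ y in INT.cyl T 0 r, (eg T w P y + √(eg T w P y))
          ∂(ν.restrict (Skel.cylSet T 0 (3 / 8))) := by
    rw [hrr]
    refine integral_congr_ae (ae_restrict_of_ae ?_)
    filter_upwards [eg_eq_ae hI.cyl hw] with y hy
    rw [hy]
  rw [e1, e2, e3]
  refine key.trans ?_
  have hθ1 : 1 ≤ θ⁻¹ := by
    rw [one_le_inv₀ hθ]; linarith
  have hpow : (θ⁻¹) ^ m ≤ θ⁻¹ ^ C := by
    rw [← Real.rpow_natCast]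
    exact Real.rpow_le_rpow_of_exponent_le hθ1 hmC
  have hJ0 : 0 ≤ ∫ y in INT.cyl T 0 r, (eg T w P y + √(eg T w P y))
          ∂(ν.restrict (Skel.cylSet T 0 (3 / 8))) :=
    integral_nonneg fun y => add_nonneg (eg_nonneg T w P y) (Real.sqrt_nonneg _)
  gcongr

/-- **[INT-W]** -/
theorem intWStmt (E : Type*) [NormedAddCommGroup E] [InnerProductSpace ℝ E]
    [FiniteDimensional ℝ E] [MeasurableSpace E] [BorelSpace E] (m n : ℕ) :
    WIN.IntWStmt E m n := by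
  intro Q
  obtain ⟨ε, C, hε, hC, H⟩ := intW_main E m n Q
  refine ⟨ε, C, hε, hC, ?_⟩
  intro T F u r θ h ν P hu hr1 hr2 hθ hθ2 hI hexc _ ψ M hψ hψ0 hψM
  exact H T F u r θ h ν P hu hr1 hr2 hθ hθ2 hI hexc ψ M hψ.measurable hψ0 hψM

end Vale.Agent.P214.INTW
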