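import Vale.Agent.P214.AREA.JacBd
import Vale.Agent.P214.KMS.Alg
import Vale.Agent.P214.FM.Cyl

/-!
# P214, block INT-W: Jacobian against the area element of a reference graph

`jac_area`: for a slope operator `A` (`Slope T A`, `‖A‖ ≤ 1`) and an `m`-plane `S`:
`|jac(p, P_S) √det(1 + A^*A) - 1| ≤ jaC m √(ew T A P_S)`.
-/

open MeasureTheory Set Filter Topology Metric
open scoped ENNReal NNReal RealInnerProductSpace

set_option linter.all false

namespace Vale.Agent.P214.INTW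

open Vale.Agent.P214.FV Vale.Agent.P214.AREA Vale.Agent.P214.KMS

variable {E : Type*} [NormedAddCommGroup E] [InnerProductSpace ℝ E] [FiniteDimensional ℝ E]
  [MeasurableSpace E] [BorelSpace E] {m : ℕ}

/-- area element of a slope operator -/
noncomputable def ar (A : E →L[ℝ] E) : ℝ :=
  √(LinearMap.det ((ContinuousLinearMap.id ℝ E + (FM.adj A).comp A : E →L[ℝ] E) : E →ₗ[ℝ] E))

lemma ar_nonneg (A : E →L[ℝ] E) : 0 ≤ ar A := Real.sqrt_nonneg _

/-- products of square roots of numbers near `1` -/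
lemma prod_sqrt_near {ι : Type*} (s : Finset ι) {a : ι → ℝ} {ρ : ℝ} (hρ : 0 ≤ ρ)
    (h0 : ∀ i ∈ s, 0 ≤ a i) (h1 : ∀ i ∈ s, |a i - 1| ≤ ρ) :
    |∏ i ∈ s, √(a i) - 1| ≤ Real.exp (s.card * ρ) - 1 := by
  have hup : ∏ i ∈ s, √(a i) ≤ Real.exp (s.card * ρ) := by
    calc ∏ i ∈ s, √(a i) ≤ ∏ _i ∈ s, Real.exp ρ := by
          refine Finset.prod_le_prod (fun i _ => Real.sqrt_nonneg _) fun i hi => ?_
          rw [Real.sqrt_le_left (Real.exp_pos _).le]
          have h2 := (abs_le.1 (h1 i hi)).2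
          have h3 : 1 + ρ ≤ Real.exp ρ := by linarith [Real.add_one_le_exp ρ]
          have h4 : 1 + ρ ≤ (1 + ρ) ^ 2 := by nlinarith
          calc a i ≤ 1 + ρ := by linarith
            _ ≤ (1 + ρ) ^ 2 := h4
            _ ≤ Real.exp ρ ^ 2 := by gcongr
      _ = Real.exp (s.card * ρ) := by rw [Finset.prod_const, ← Real.exp_nat_mul]
  have hlow : 1 - s.card * ρ ≤ ∏ i ∈ s, √(a i) := by
    have hc0 : 0 ≤ min ρ 1 := le_min hρ zero_le_one
    have hc1 : min ρ 1 ≤ 1 := min_le_right _ _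
    have h2 := one_sub_sum_le_prod s (a := fun _ => min ρ 1) (fun _ _ => hc0) (fun _ _ => hc1)
    have h3 : ∏ _i ∈ s, (1 - min ρ 1) ≤ ∏ i ∈ s, √(a i) := by
      refine Finset.prod_le_prod (fun i _ => by linarith) fun i hi => ?_
      refine Real.le_sqrt_of_sq_le ?_
      have h4 := (abs_le.1 (h1 i hi)).1
      have h5 := h0 i hi
      have h6 : 1 - min ρ 1 ≤ a i := by
        rcases le_total ρ 1 with h | h
        · rw [min_eq_left h]; linarith
        · rw [min_eq_right h]; linarith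
      nlinarith
    rw [Finset.sum_const, nsmul_eq_mul] at h2
    have h7 : (s.card : ℝ) * min ρ 1 ≤ s.card * ρ := by gcongr; exact min_le_left _ _
    linarith
  have h8 : s.card * ρ + 1 ≤ Real.exp (s.card * ρ) := Real.add_one_le_exp _
  rw [abs_le]
  constructor <;> linarith

/-- the constant -/
noncomputable def jaC (m : ℕ) : ℝ := (2 + 2 * √m) * m * Real.exp (m * (4 * √m + 4 * m))

lemma jaC_nonneg (m : ℕ) : 0 ≤ jaC m := by unfold jaC; positivity

/-- **Jacobian against area element.** -/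
theorem jac_area {S T : Submodule ℝ E} (hS : Module.finrank ℝ S = m)
    (hT : Module.finrank ℝ T = m) {A : E →L[ℝ] E} (hA : Slope T A) (hA1 : ‖A‖ ≤ 1) :
    |jac (proj T) (proj S) * ar A - 1| ≤ jaC m * √(ew T A S.starProjection) := by
  obtain ⟨ι₀, hr₀, ha₀, h₀⟩ := AREA.exists_param hT
  obtain ⟨ι, hr, ha, h⟩ := AREA.exists_param hS
  set e := ew T A S.starProjection with he
  have he0 : 0 ≤ e := by
    rw [he, ew, hs]; exact Finset.sum_nonneg fun _ _ => by positivity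
  set B := pmap ι₀ ι with hB
  -- `p ι x = ι₀ B x`
  have hpι : ∀ x, T.starProjection (ι x) = ι₀ (B x) := fun x => h₀ (ι x)
  -- the quadratic form
  set G₀ : EuclideanSpace ℝ (Fin m) →L[ℝ] EuclideanSpace ℝ (Fin m) :=
    ContinuousLinearMap.id ℝ _ + (ContinuousLinearMap.adjoint (A.comp ι₀.toContinuousLinearMap)).comp
      (A.comp ι₀.toContinuousLinearMap) with hG₀
  set M : EuclideanSpace ℝ (Fin m) →ₗ[ℝ] EuclideanSpace ℝ (Fin m) :=
    ((ContinuousLinearMap.adjoint B).toLinearMap ∘ₗ G₀.toLinearMap) ∘ₗ B.toLinearMap with hM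
  have hMx : ∀ x y, ⟪x, M y⟫ = ⟪B x, B y⟫ + ⟪A (ι₀ (B x)), A (ι₀ (B y))⟫ := by
    intro x y
    show ⟪x, (ContinuousLinearMap.adjoint B) (G₀ (B y))⟫ = _
    rw [ContinuousLinearMap.adjoint_inner_right, hG₀]
    rw [ContinuousLinearMap.add_apply, inner_add_right]
    congr 1
    rw [ContinuousLinearMap.comp_apply, ContinuousLinearMap.adjoint_inner_right]
    rfl
  have hsym : M.IsSymmetric := fun x y => by
    rw [hMx, real_inner_comm, hMx]
    rw [real_inner_comm (B y), real_inner_comm (A (ι₀ (B y)))]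
  have hn : Module.finrank ℝ (EuclideanSpace ℝ (Fin m)) = m := by simp
  set ev := hsym.eigenvalues hn with hev
  set b := hsym.eigenvectorBasis hn with hb
  -- operator bound of `δ = (q - A) ι`
  have hδ : ∀ x, ‖slp T A (ι x)‖ ≤ √e * ‖x‖ := by
    intro x
    have h1 : ι x = S.starProjection (ι x) := by
      have := h (ι x)
      rw [ha] at this
      exact this.symm
    have h2 : ‖slp T A (ι x)‖ ^ 2 ≤ e * ‖x‖ ^ 2 := by
      set b' := stdOrthonormalBasis ℝ E
      have h3 : slp T A (ι x) = ∑ k, ⟪b' k, ι x⟫ • slp T A (S.starProjection (b' k)) := by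
        conv_lhs => rw [h1, ← b'.sum_repr' (ι x)]
        simp only [map_sum, map_smul]
      have h4 : ‖slp T A (ι x)‖ ≤ ∑ k, |⟪b' k, ι x⟫| * ‖slp T A (S.starProjection (b' k))‖ := by
        rw [h3]
        refine (norm_sum_le _ _).trans (Finset.sum_le_sum fun k _ => ?_)
        rw [norm_smul, Real.norm_eq_abs]
      have h5 : (∑ k, |⟪b' k, ι x⟫| * ‖slp T A (S.starProjection (b' k))‖) ^ 2
          ≤ (∑ k, |⟪b' k, ι x⟫| ^ 2) * ∑ k, ‖slp T A (S.starProjection (b' k))‖ ^ 2 :=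
        Finset.sum_mul_sq_le_sq_mul_sq _ _ _
      have h6 : ∑ k, |⟪b' k, ι x⟫| ^ 2 = ‖x‖ ^ 2 := by
        have := b'.sum_sq_norm_inner_right (ι x)
        simp only [Real.norm_eq_abs] at this
        rw [this, ι.norm_map]
      calc ‖slp T A (ι x)‖ ^ 2
          ≤ (∑ k, |⟪b' k, ι x⟫| * ‖slp T A (S.starProjection (b' k))‖) ^ 2 := by gcongr
        _ ≤ _ := h5
        _ = e * ‖x‖ ^ 2 := by rw [h6, mul_comm]; rfl
    refine abs_le_of_sq_le_sq' ?_ (by positivity) |>.2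
    rw [mul_pow, Real.sq_sqrt he0]
    exact h2
  -- the quadratic form is near the identity
  set ρ := 2 * √e + e with hρ
  have hρ0 : 0 ≤ ρ := by positivity
  have hquad : ∀ x, |⟪x, M x⟫ - ‖x‖ ^ 2| ≤ ρ * ‖x‖ ^ 2 := by
    intro x
    have h1 : ‖ι x‖ ^ 2 = ‖T.starProjection (ι x)‖ ^ 2 + ‖FV.co T (ι x)‖ ^ 2 :=
      norm_sq_star_add_co T _
    have h2 : FV.co T (ι x) = slp T A (ι x) + A (ι x) := by rw [slp]; simp
    have h3 : A (ι x) = A (ι₀ (B x)) := by rw [hA.ker, hpι]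
    rw [ι.norm_map, hpι, ι₀.norm_map, h2, h3, norm_add_sq_real] at h1
    rw [hMx, real_inner_self_eq_norm_sq, real_inner_self_eq_norm_sq]
    have h4 : ‖B x‖ ^ 2 + ‖A (ι₀ (B x))‖ ^ 2 - ‖x‖ ^ 2
        = -(2 * ⟪slp T A (ι x), A (ι₀ (B x))⟫ + ‖slp T A (ι x)‖ ^ 2) := by linarith
    rw [h4, abs_neg]
    have h5 : |⟪slp T A (ι x), A (ι₀ (B x))⟫| ≤ √e * ‖x‖ * ‖x‖ := by
      refine (abs_real_inner_le_norm _ _).trans ?_
      have h6 : ‖A (ι₀ (B x))‖ ≤ ‖x‖ := by
        calc ‖A (ι₀ (B x))‖ = ‖A (ι x)‖ := by rw [h3]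
          _ ≤ ‖A‖ * ‖ι x‖ := A.le_opNorm _
          _ ≤ 1 * ‖x‖ := by rw [ι.norm_map]; gcongr
          _ = ‖x‖ := one_mul _
      gcongr
      exact hδ x
    have h7 : ‖slp T A (ι x)‖ ^ 2 ≤ e * ‖x‖ ^ 2 := by
      calc ‖slp T A (ι x)‖ ^ 2 ≤ (√e * ‖x‖) ^ 2 := by gcongr; exact hδ x
        _ = _ := by rw [mul_pow, Real.sq_sqrt he0]
    calc |2 * ⟪slp T A (ι x), A (ι₀ (B x))⟫ + ‖slp T A (ι x)‖ ^ 2|
        ≤ |2 * ⟪slp T A (ι x), A (ι₀ (B x))⟫| + |‖slp T A (ι x)‖ ^ 2| := abs_add_le _ _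
      _ = 2 * |⟪slp T A (ι x), A (ι₀ (B x))⟫| + ‖slp T A (ι x)‖ ^ 2 := by
          rw [abs_mul, abs_of_nonneg (by norm_num : (0:ℝ) ≤ 2),
            abs_of_nonneg (sq_nonneg ‖slp T A (ι x)‖)]
      _ ≤ 2 * (√e * ‖x‖ * ‖x‖) + e * ‖x‖ ^ 2 := by gcongr
      _ = ρ * ‖x‖ ^ 2 := by rw [hρ]; ring
  have hevb : ∀ i, ev i = ⟪b i, M (b i)⟫ := by
    intro i
    have h1 := hsym.apply_eigenvectorBasis hn i
    rw [hb, h1, RCLike.ofReal_real_eq_id, id, real_inner_smul_right, real_inner_self_eq_norm_sq,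
      OrthonormalBasis.norm_eq_one]
    simp [hev]
  have hbn : ∀ i, ‖b i‖ = 1 := fun i => by rw [hb]; exact OrthonormalBasis.norm_eq_one _ _
  have hev1 : ∀ i, |ev i - 1| ≤ ρ := by
    intro i
    have := hquad (b i)
    rwa [← hevb, hbn, one_pow, mul_one] at this
  have hev0 : ∀ i, 0 ≤ ev i := by
    intro i
    rw [hevb, hMx, real_inner_self_eq_norm_sq, real_inner_self_eq_norm_sq]
    positivity
  -- determinants
  have hdetM : LinearMap.det M = ∏ i, ev i := by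
    have := hsym.det_eq_prod_eigenvalues hn
    simpa using this
  have hdetG : LinearMap.det ((ContinuousLinearMap.id ℝ E + (FM.adj A).comp A : E →L[ℝ] E) :
      E →ₗ[ℝ] E) = LinearMap.det G₀.toLinearMap := by
    have e1 : ((ContinuousLinearMap.id ℝ E + (FM.adj A).comp A : E →L[ℝ] E) : E →ₗ[ℝ] E) =
        1 + (FM.adj A).toLinearMap ∘ₗ A.toLinearMap := by
      ext z; simp
    have e2 : (G₀ : EuclideanSpace ℝ (Fin m) →ₗ[ℝ] EuclideanSpace ℝ (Fin m)) =
        1 + ((ContinuousLinearMap.adjoint ι₀.toContinuousLinearMap).toLinearMap ∘ₗ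
          (FM.adj A).toLinearMap ∘ₗ A.toLinearMap) ∘ₗ ι₀.toLinearMap := by
      refine LinearMap.ext fun z => ?_
      refine ext_inner_left ℝ fun y => ?_
      have l1 : ⟪y, G₀ z⟫ = ⟪y, z⟫ + ⟪A (ι₀ y), A (ι₀ z)⟫ := by
        rw [hG₀, ContinuousLinearMap.add_apply, inner_add_right]
        congr 1
        rw [ContinuousLinearMap.comp_apply, ContinuousLinearMap.adjoint_inner_right]
        rfl
      have l2 : ⟪y, (1 + ((ContinuousLinearMap.adjoint ι₀.toContinuousLinearMap).toLinearMap ∘ₗ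
          (FM.adj A).toLinearMap ∘ₗ A.toLinearMap) ∘ₗ ι₀.toLinearMap :
            EuclideanSpace ℝ (Fin m) →ₗ[ℝ] EuclideanSpace ℝ (Fin m)) z⟫
          = ⟪y, z⟫ + ⟪A (ι₀ y), A (ι₀ z)⟫ := by
        rw [LinearMap.add_apply, inner_add_right]
        congr 1
        show ⟪y, (ContinuousLinearMap.adjoint ι₀.toContinuousLinearMap) (FM.adj A (A (ι₀ z)))⟫ = _
        rw [ContinuousLinearMap.adjoint_inner_right]
        exact FM.inner_adj_right A _ _
      rw [l2]
      exact l1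
    have e3 : (FM.adj A).toLinearMap ∘ₗ A.toLinearMap = ι₀.toLinearMap ∘ₗ
        ((ContinuousLinearMap.adjoint ι₀.toContinuousLinearMap).toLinearMap ∘ₗ
          (FM.adj A).toLinearMap ∘ₗ A.toLinearMap) := by
      refine LinearMap.ext fun z => ?_
      show FM.adj A (A z) = ι₀ ((ContinuousLinearMap.adjoint ι₀.toContinuousLinearMap)
        (FM.adj A (A z)))
      have l1 := h₀ (FM.adj A (A z))
      rw [← l1]
      -- `p A^* = A^*`
      refine ext_inner_left ℝ fun y => ?_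
      show ⟪y, FM.adj A (A z)⟫ = ⟪y, T.starProjection (FM.adj A (A z))⟫
      rw [FM.inner_adj_right, ← inner_star, FM.inner_adj_right, ← hA.ker]
    rw [e1, e3, e2, det_one_add_comp]
  have hdet : jac (proj T) (proj S) * ar A = ∏ i, √(ev i) := by
    rw [jac_eq h₀ ha h, ← hB]
    unfold ar
    rw [hdetG, ← Real.sqrt_prod _ fun i _ => hev0 i, ← hdetM, hM, LinearMap.det_comp,
      LinearMap.det_comp]
    have h4 : LinearMap.det (ContinuousLinearMap.adjoint B).toLinearMap =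
      LinearMap.det B.toLinearMap := det_adj B
    rw [h4, show LinearMap.det (B : EuclideanSpace ℝ (Fin m) →ₗ[ℝ] EuclideanSpace ℝ (Fin m)) *
        LinearMap.det (G₀ : EuclideanSpace ℝ (Fin m) →ₗ[ℝ] EuclideanSpace ℝ (Fin m)) *
        LinearMap.det (B : EuclideanSpace ℝ (Fin m) →ₗ[ℝ] EuclideanSpace ℝ (Fin m)) =
        LinearMap.det (B : EuclideanSpace ℝ (Fin m) →ₗ[ℝ] EuclideanSpace ℝ (Fin m)) ^ 2 *
        LinearMap.det (G₀ : EuclideanSpace ℝ (Fin m) →ₗ[ℝ] EuclideanSpace ℝ (Fin m)) by ring,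
      Real.sqrt_mul (sq_nonneg _), Real.sqrt_sq_eq_abs]
  have key := prod_sqrt_near Finset.univ hρ0 (fun i _ => hev0 i) (fun i _ => hev1 i)
  rw [← hdet, Finset.card_univ, Fintype.card_fin] at key
  refine key.trans ?_
  -- final estimate
  have hem : e ≤ 4 * m := by
    have h1 : e ≤ (1 + ‖A‖) ^ 2 * Module.finrank ℝ S := by
      rw [he, ← sum_norm_sq_star S, ew, hs, Finset.mul_sum]
      refine Finset.sum_le_sum fun k _ => ?_
      simp only [ContinuousLinearMap.comp_apply]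
      set y := S.starProjection (stdOrthonormalBasis ℝ E k)
      rw [← mul_pow]
      have : ‖slp T A y‖ ≤ (1 + ‖A‖) * ‖y‖ := by
        have h1 : slp T A y = FV.co T y - A y := by rw [slp]; simp
        rw [h1]
        calc ‖FV.co T y - A y‖ ≤ ‖FV.co T y‖ + ‖A y‖ := norm_sub_le _ _
          _ ≤ ‖y‖ + ‖A‖ * ‖y‖ := add_le_add (norm_co_le T y) (A.le_opNorm y)
          _ = _ := by ring
      gcongr
    rw [hS] at h1
    refine h1.trans ?_
    have h2 : (1 + ‖A‖) ^ 2 ≤ 4 := by nlinarith [norm_nonneg A]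
    gcongr
  have hse : √e ≤ 2 * √m := by
    rw [show (2:ℝ) * √m = √(4 * m) by
      rw [Real.sqrt_mul (by norm_num), show (4:ℝ) = 2 ^ 2 by norm_num,
        Real.sqrt_sq (by norm_num)]]
    exact Real.sqrt_le_sqrt hem
  have hee : e = √e * √e := (Real.mul_self_sqrt he0).symm
  have hρ1 : ρ ≤ (2 + 2 * √m) * √e := by
    have h1 : e ≤ 2 * √m * √e := by
      rw [hee]
      have : √(√e * √e) = √e := by rw [Real.sqrt_mul_self (Real.sqrt_nonneg e)]
      rw [this]
      gcongr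
    rw [hρ]
    nlinarith
  have hρ2 : ρ ≤ 4 * √m + 4 * m := by rw [hρ]; linarith
  have hexp : Real.exp (m * ρ) - 1 ≤ m * ρ * Real.exp (m * ρ) := by
    have h1 : -(m * ρ) + 1 ≤ Real.exp (-(m * ρ)) := Real.add_one_le_exp _
    have h2 : Real.exp (-(m * ρ)) * Real.exp (m * ρ) = 1 := by rw [← Real.exp_add]; simp
    have h3 := Real.exp_pos (m * ρ)
    nlinarith
  calc Real.exp (m * ρ) - 1 ≤ m * ρ * Real.exp (m * ρ) := hexp
    _ ≤ m * ((2 + 2 * √m) * √e) * Real.exp (m * (4 * √m + 4 * m)) := by gcongr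
    _ = _ := by unfold jaC; ring

end Vale.Agent.P214.INTW
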