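import Vale.Agent.P214.INTM.M4
import Vale.Agent.P214.INT.NearMain
import Vale.Agent.P214.INTM.M5

/-!
# P214, block INT-W: the number of sheets along a chain of cylinders

Inside a cylinder over `ball z r` in which the tilt is controlled by a small constant and an energy
density `e` of very small integral (compared with `t^m`), the mass fraction of every cylinder over
a ball `ball x ρ` with `‖x - z‖ + 32 ρ ≤ r`, `ρ ≥ t`, is near the same integer `Q`, although nothing
is known about the measure outside.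
-/

open Set Filter Topology MeasureTheory Metric
open scoped RealInnerProductSpace ENNReal

namespace Vale.Agent.P214.INTW

open Vale.Agent.P214 Vale.Agent.P214.FV Vale.Agent.P214.INT Vale.Agent.P214.INTM

set_option linter.all false

variable {E : Type*} [NormedAddCommGroup E] [InnerProductSpace ℝ E] [FiniteDimensional ℝ E]
  [MeasurableSpace E] [BorelSpace E]

variable {T : Submodule ℝ E} {z x y v : E} {r s h : ℝ} {m : ℕ} {G : Set E} {ν : Measure E}
  {P : E → E →L[ℝ] E} {S : Set E} {θ : E → ℕ} {J : E → ℝ}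

/-- the weight `2 (1 - ρ²/r²)_+` integrated -/
noncomputable def Wd (T : Submodule ℝ E) (ν : Measure E) (z : E) (r : ℝ) : ℝ :=
  ∫ y, dcut (T.starProjection z) r (T.starProjection y) ∂ν

lemma continuous_dc (T : Submodule ℝ E) (z : E) (r : ℝ) : Continuous fun y : E =>
    dcut (T.starProjection z) r (T.starProjection y) :=
  (continuous_dcut _ _).comp T.starProjection.continuous

lemma integrable_dc [IsFiniteMeasure ν] (z : E) (r : ℝ) : Integrable (fun y : E =>
    dcut (T.starProjection z) r (T.starProjection y)) ν := by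
  refine (integrable_const (2:ℝ)).mono' (continuous_dc T z r).aestronglyMeasurable ?_
  exact Eventually.of_forall fun y => by
    rw [Real.norm_of_nonneg (dcut_nonneg _ _ _)]; exact dcut_le_two _ _ _

lemma integrable_dcr [IsFiniteMeasure ν] (hr : 0 < r) : Integrable (fun y =>
    dcut (T.starProjection z) r (T.starProjection y)
      * (2 * ‖T.starProjection (y - z)‖ ^ 2 / r ^ 3)) ν := by
  have hcd := continuous_dc T z r
  refine (integrable_const (2 * (2 * r ^ 2 / r ^ 3))).mono' ?_ ?_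
  · exact (by fun_prop : Continuous fun y : E =>
      dcut (T.starProjection z) r (T.starProjection y)
        * (2 * ‖T.starProjection (y - z)‖ ^ 2 / r ^ 3)).aestronglyMeasurable
  · refine Eventually.of_forall fun y => ?_
    by_cases hy : y ∈ cyl T z r
    · rw [INTM.mem_cyl] at hy
      have h3 := dcut_le_two (T.starProjection z) r (T.starProjection y)
      have h4 := dcut_nonneg (T.starProjection z) r (T.starProjection y)
      rw [norm_mul, Real.norm_of_nonneg h4, Real.norm_of_nonneg (by positivity)]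
      gcongr
    · rw [dcut_supp hr hy]; simp; positivity

lemma dcut_eq_max (z : E) (r : ℝ) (y : E) :
    dcut (T.starProjection z) r (T.starProjection y)
      = 2 * max (1 - ‖T.starProjection (y - z)‖ ^ 2 / r ^ 2) 0 := by
  unfold dcut dprof
  rw [map_sub]

/-- the two weights -/
lemma weights (hr : 0 < r) (y : E) :
    r * (dcut (T.starProjection z) r (T.starProjection y)
      * (2 * ‖T.starProjection (y - z)‖ ^ 2 / r ^ 3)) + 4 * hcut T z r y
      = 2 * dcut (T.starProjection z) r (T.starProjection y) := by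
  rw [dcut_eq_max, hcut_eq]
  unfold prof
  set a := ‖T.starProjection (y - z)‖ ^ 2 / r ^ 2 with ha
  have h1 : r * (2 * max (1 - a) 0 * (2 * ‖T.starProjection (y - z)‖ ^ 2 / r ^ 3))
      = 4 * max (1 - a) 0 * a := by
    rw [ha]; field_simp; ring
  rw [h1]
  rcases le_total 0 (1 - a) with h2 | h2
  · rw [max_eq_left h2]; ring
  · rw [max_eq_right h2]; ring

lemma two_Wd [IsFiniteMeasure ν] (hr : 0 < r) : 2 * Wd T ν z r
    = r * (∫ y, dcut (T.starProjection z) r (T.starProjection y)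
      * (2 * ‖T.starProjection (y - z)‖ ^ 2 / r ^ 3) ∂ν) + 4 * Im T ν z r := by
  unfold Wd Im
  rw [← integral_const_mul, ← integral_const_mul, ← integral_const_mul,
    ← integral_add ((integrable_dcr hr).const_mul r) ((INTM.integrable_hcut z r).const_mul 4)]
  exact integral_congr_ae (Eventually.of_forall fun y => (weights hr y).symm)

/-- **weighted scale inequality** -/
lemma abs_scale_w (hC : CylStat m T G h ν P) (hr : 0 < r)
    (hG : closedBall (T.starProjection z) r ⊆ G) {κ : ℝ} {e : E → ℝ} (he : ∀ y, 0 ≤ e y)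
    (hκ : 0 ≤ κ)
    (hei : IntegrableOn e (cyl T z r) ν)
    (hle : ∀ᵐ y ∂ν, y ∈ cyl T z r → INT.tilt P T y ^ 2 ≤ κ + e y) :
    |r * (∫ y, dcut (T.starProjection z) r (T.starProjection y)
      * (2 * ‖T.starProjection (y - z)‖ ^ 2 / r ^ 3) ∂ν) - m * Im T ν z r|
      ≤ 5 / 2 * Module.finrank ℝ E * (κ * Wd T ν z r + 2 * ∫ y in cyl T z r, e y ∂ν) := by
  have := hC.fin
  have hz : T.starProjection z ∈ T := T.starProjection_apply_mem z
  have hv := hC.virial hz (contDiff_hcut z r) (baseCpt_hcut hr hG)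
  have hb : ∀ y, bas T (T.starProjection z) y = T.starProjection (y - z) := fun y => by
    rw [bas, map_sub]
  have i1 := integrable_dcr (ν := ν) (T := T) (z := z) hr
  have i2 : Integrable (fun y => hcut T z r y) ν := INTM.integrable_hcut z r
  have i3 : Integrable (fun y => hcut T z r y * tr (T.starProjection.comp (P y))
      + fderiv ℝ (hcut T z r) y (P y (bas T (T.starProjection z) y))) ν := by
    refine Integrable.add ?_ ?_
    · have h1 := hC.integrable_tr (B := fun y => hcut T z r y • T.starProjection)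
        ((contDiff_hcut z r).continuous.smul continuous_const)
        ((baseCpt_hcut hr hG).comp_zero fun y hy => by simp [hy])
      refine h1.congr (Eventually.of_forall fun y => ?_)
      simp only
      rw [ContinuousLinearMap.smul_comp, tr_smul]
    · exact hC.integrable_prod₂ (contDiff_hcut z r) (contDiff_bas (n := 0) T _).continuous
        (baseCpt_hcut hr hG)
  have e1 : r * (∫ y, dcut (T.starProjection z) r (T.starProjection y)
      * (2 * ‖T.starProjection (y - z)‖ ^ 2 / r ^ 3) ∂ν) - m * Im T ν z r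
      = ∫ y, (r * (dcut (T.starProjection z) r (T.starProjection y)
      * (2 * ‖T.starProjection (y - z)‖ ^ 2 / r ^ 3)) - m * hcut T z r y
      + (hcut T z r y * tr (T.starProjection.comp (P y))
      + fderiv ℝ (hcut T z r) y (P y (bas T (T.starProjection z) y)))) ∂ν := by
    have i12 : Integrable (fun y => r * (dcut (T.starProjection z) r (T.starProjection y)
      * (2 * ‖T.starProjection (y - z)‖ ^ 2 / r ^ 3)) - m * hcut T z r y) ν :=
      (i1.const_mul r).sub (i2.const_mul m)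
    rw [integral_add i12 i3, hv, add_zero,
      integral_sub (i1.const_mul r) (i2.const_mul m), integral_const_mul, integral_const_mul]
    rfl
  rw [e1]
  set N : ℝ := (Module.finrank ℝ E : ℝ) with hN
  have hN0 : 0 ≤ N := by positivity
  have hcm : MeasurableSet (cyl T z r) := INTM.isOpen_cyl.measurableSet
  -- the dominating function
  set F : E → ℝ := fun y => 5 / 2 * N * (κ * dcut (T.starProjection z) r (T.starProjection y)
    + (cyl T z r).indicator (fun y => 2 * e y) y) with hF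
  have iF : Integrable F ν := by
    refine Integrable.const_mul (((integrable_dc z r).const_mul κ).add ?_) _
    exact (integrable_indicator_iff hcm).2 (hei.const_mul 2)
  have hFi : ∫ y, F y ∂ν = 5 / 2 * N * (κ * Wd T ν z r + 2 * ∫ y in cyl T z r, e y ∂ν) := by
    rw [hF]
    simp only
    rw [integral_const_mul, integral_add ((integrable_dc z r).const_mul κ)
      ((integrable_indicator_iff hcm).2 (hei.const_mul 2)), integral_const_mul,
      integral_indicator hcm, integral_const_mul]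
    rfl
  rw [← hFi, ← Real.norm_eq_abs]
  refine norm_integral_le_of_norm_le iF ?_
  filter_upwards [hC.proj, hle, ae_tl hC] with y hy hle' htl
  obtain ⟨S', hS, hP⟩ := hy
  rw [Real.norm_eq_abs]
  by_cases hyc : y ∈ cyl T z r
  · have hle2 := hle' hyc
    have hyc' := hyc
    rw [INTM.mem_cyl] at hyc
    rw [hb, fderiv_hcut', hP]
    have hST : Module.finrank ℝ S' = Module.finrank ℝ T := by rw [hS, hC.dimT]
    have h1 := abs_inner_defect_le hST (y - z) (T.starProjection (y - z))
    rw [star_self, real_inner_self_eq_norm_sq] at h1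
    have h2 : tr (T.starProjection.comp S'.starProjection) = m - FV.tilt T S'.starProjection := by
      rw [tilt_star, hS]; ring
    have h3 : ⟪T.starProjection (y - z), T.starProjection (S'.starProjection
        (T.starProjection (y - z)))⟫ = ⟪T.starProjection (y - z), S'.starProjection
        (T.starProjection (y - z))⟫ := by rw [← inner_star, star_self]
    rw [h2, h3]
    have d1 := dcut_le_two (T.starProjection z) r (T.starProjection y)
    have d2 := dcut_nonneg (T.starProjection z) r (T.starProjection y)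
    have d3 := hcut_nonneg (T := T) z r y
    have d4 : hcut T z r y ≤ dcut (T.starProjection z) r (T.starProjection y) / 2 := by
      rw [dcut_eq_max, hcut_eq]
      unfold prof
      set a := ‖T.starProjection (y - z)‖ ^ 2 / r ^ 2 with ha
      have ha0 : 0 ≤ a := by positivity
      rcases le_total 0 (1 - a) with h2 | h2
      · rw [max_eq_left h2]; nlinarith
      · rw [max_eq_right h2]; norm_num
    have t0 := FV.tilt_nonneg S' T
    have t1 : FV.tilt T S'.starProjection ≤ N * (κ + e y) := by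
      have := htl.2
      rw [hP] at this
      refine this.trans ?_
      rw [hN]
      have hh := hle2
      gcongr
    set D := dcut (T.starProjection z) r (T.starProjection y) with hD
    set H := hcut T z r y
    set t := FV.tilt T S'.starProjection
    set a := ‖T.starProjection (y - z)‖
    set b := ⟪T.starProjection (y - z), S'.starProjection (T.starProjection (y - z))⟫
    have e2 : r * (D * (2 * a ^ 2 / r ^ 3)) - m * H
        + (H * (m - t) + -D * (2 / r ^ 2) * b) = D * (2 / r ^ 2) * (a ^ 2 - b) - H * t := by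
      field_simp; ring
    rw [e2]
    have ha : 0 ≤ a := norm_nonneg _
    have h5 : |D * (2 / r ^ 2) * (a ^ 2 - b)| ≤ 2 * (D * t) := by
      rw [abs_mul, abs_of_nonneg (by positivity)]
      calc D * (2 / r ^ 2) * |a ^ 2 - b| ≤ D * (2 / r ^ 2) * (t * r * r) := by
            gcongr
            refine h1.trans ?_
            gcongr
        _ = 2 * (D * t) := by field_simp
    have h6 : |H * t| ≤ 1 / 2 * (D * t) := by
      rw [abs_of_nonneg (by positivity)]
      nlinarith
    have h7 : D * t ≤ N * (κ * D + 2 * e y) := by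
      have he' := he y
      calc D * t ≤ D * (N * (κ + e y)) := by gcongr
        _ = N * (κ * D + D * e y) := by ring
        _ ≤ N * (κ * D + 2 * e y) := by gcongr
    calc |D * (2 / r ^ 2) * (a ^ 2 - b) - H * t|
        ≤ |D * (2 / r ^ 2) * (a ^ 2 - b)| + |H * t| := abs_sub _ _
      _ ≤ 5 / 2 * (D * t) := by linarith
      _ ≤ 5 / 2 * (N * (κ * D + 2 * e y)) := by gcongr
      _ = F y := by
          rw [hF]; simp only
          rw [indicator_of_mem hyc']; ring
  · have h1 : ∀ w, fderiv ℝ (hcut T z r) y w = 0 := fun w => by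
      rw [fderiv_hcut', dcut_supp hr hyc]; simp
    rw [dcut_supp hr hyc, hcut_supp hr hyc, h1]
    simp only [zero_mul, mul_zero, sub_zero, add_zero, abs_zero]
    rw [hF]; simp only
    rw [dcut_supp hr hyc, indicator_of_notMem hyc]; simp

lemma Wd_nonneg : 0 ≤ Wd T ν z r := integral_nonneg fun _ => dcut_nonneg _ _ _

lemma Im_nonneg : 0 ≤ Im T ν z r := integral_nonneg fun _ => hcut_nonneg _ _ _

lemma mono_e {A B : Set E} {e : E → ℝ} (he : ∀ y, 0 ≤ e y) (hAB : A ⊆ B)
    (hei : IntegrableOn e B ν) : ∫ y in A, e y ∂ν ≤ ∫ y in B, e y ∂ν :=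
  setIntegral_mono_set hei (Eventually.of_forall fun y => he y) hAB.eventuallyLE

/-- upper bound of the scale derivative, the tilt being absorbed -/
lemma scale_up (hC : CylStat m T G h ν P) (hr : 0 < r)
    (hG : closedBall (T.starProjection z) r ⊆ G) {κ : ℝ} {e : E → ℝ} (he : ∀ y, 0 ≤ e y)
    (hκ : 0 ≤ κ) (hκ1 : 5 / 2 * Module.finrank ℝ E * κ * (m + 4) ≤ 1)
    (hei : IntegrableOn e (cyl T z r) ν)
    (hle : ∀ᵐ y ∂ν, y ∈ cyl T z r → INT.tilt P T y ^ 2 ≤ κ + e y) :
    r * (∫ y, dcut (T.starProjection z) r (T.starProjection y)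
      * (2 * ‖T.starProjection (y - z)‖ ^ 2 / r ^ 3) ∂ν)
      ≤ (m + 1) * Im T ν z r + 10 * Module.finrank ℝ E * ∫ y in cyl T z r, e y ∂ν := by
  have := hC.fin
  have h1 := abs_scale_w hC hr hG he hκ hei hle
  have h2 := two_Wd (T := T) (z := z) (ν := ν) hr
  set N : ℝ := (Module.finrank ℝ E : ℝ) with hN
  have hN0 : 0 ≤ N := by positivity
  set D := r * (∫ y, dcut (T.starProjection z) r (T.starProjection y)
      * (2 * ‖T.starProjection (y - z)‖ ^ 2 / r ^ 3) ∂ν)
  set W := Wd T ν z r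
  set I := Im T ν z r
  set e1 := ∫ y in cyl T z r, e y ∂ν with he1
  have hW : 0 ≤ W := Wd_nonneg
  have hI : 0 ≤ I := Im_nonneg
  have he0 : 0 ≤ e1 := by rw [he1]; exact integral_nonneg fun y => he y
  have hm : (0:ℝ) ≤ m := by positivity
  have h3 := (abs_le.1 h1).2
  have hκ2 : 5 / 2 * N * κ ≤ 1 := by
    have h0 : 0 ≤ 5 / 2 * N * κ := by positivity
    nlinarith
  have hκ3 : 5 / 2 * N * κ * W ≤ W := by nlinarith
  have h4 : W ≤ (m + 4) * I + 5 * N * e1 := by nlinarith
  have h5 : 5 / 2 * N * κ * W ≤ 5 / 2 * N * κ * ((m + 4) * I + 5 * N * e1) := by gcongr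
  have h6 : 5 / 2 * N * κ * ((m + 4) * I) ≤ I := by
    calc 5 / 2 * N * κ * ((m + 4) * I) = (5 / 2 * N * κ * (m + 4)) * I := by ring
      _ ≤ 1 * I := by gcongr
      _ = I := one_mul _
  have h7 : 5 / 2 * N * κ * (5 * N * e1) ≤ 5 * N * e1 := by
    have : 0 ≤ 5 * N * e1 := by positivity
    nlinarith
  nlinarith

/-- **mass growth**, the tilt being absorbed -/
lemma Im_growth (hC : CylStat m T G h ν P) {r₁ r₂ : ℝ} (h1 : 0 < r₁) (h12 : r₁ ≤ r₂)
    (hG : closedBall (T.starProjection z) r₂ ⊆ G) {κ B : ℝ} {e : E → ℝ} (he : ∀ y, 0 ≤ e y)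
    (hκ : 0 ≤ κ) (hκ1 : 5 / 2 * Module.finrank ℝ E * κ * (m + 4) ≤ 1)
    (hei : IntegrableOn e (cyl T z r₂) ν)
    (hle : ∀ᵐ y ∂ν, y ∈ cyl T z r₂ → INT.tilt P T y ^ 2 ≤ κ + e y)
    (hB : 10 * Module.finrank ℝ E * ∫ y in cyl T z r₂, e y ∂ν ≤ B) :
    Im T ν z r₂ + B ≤ (r₂ / r₁) ^ (m + 1) * (Im T ν z r₁ + B) := by
  have := hC.fin
  have hB0 : 0 ≤ B := le_trans (mul_nonneg (by positivity) (integral_nonneg fun y => he y)) hB
  set D : ℝ → ℝ := fun s => ∫ y, dcut (T.starProjection z) s (T.starProjection y)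
      * (2 * ‖T.starProjection (y - z)‖ ^ 2 / s ^ 3) ∂ν with hD
  have hder : ∀ s, 0 < s → HasDerivAt (Im T ν z) (D s) s := fun s hs => hasDerivAt_Im hs
  have hup : ∀ s ∈ Icc r₁ r₂, s * D s ≤ (m + 1) * Im T ν z s + B := by
    intro s hs
    have hs0 : 0 < s := h1.trans_le hs.1
    have hsub : cyl T z s ⊆ cyl T z r₂ := INTM.cyl_mono hs.2
    have h3 := scale_up hC hs0 ((closedBall_subset_closedBall hs.2).trans hG) he hκ hκ1
      (hei.mono_set hsub) (hle.mono fun y hy hy' => hy (hsub hy'))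
    refine h3.trans ?_
    have h4 := mono_e he hsub hei
    have h5 : 10 * (Module.finrank ℝ E : ℝ) * ∫ y in cyl T z s, e y ∂ν
        ≤ 10 * Module.finrank ℝ E * ∫ y in cyl T z r₂, e y ∂ν := by gcongr
    linarith
  set f : ℝ → ℝ := fun s => (Im T ν z s + B) / s ^ (m + 1) with hf
  have hfd : ∀ s, 0 < s → HasDerivAt f
      ((D s * s ^ (m + 1) - (Im T ν z s + B) * ((m + 1 : ℕ) * s ^ m)) / (s ^ (m + 1)) ^ 2) s := by
    intro s hs
    have h3 := ((hder s hs).add_const B).div (hasDerivAt_pow (m + 1) s) (by positivity)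
    rw [Nat.add_sub_cancel] at h3
    exact h3
  have hanti : AntitoneOn f (Icc r₁ r₂) := by
    refine antitoneOn_of_deriv_nonpos (convex_Icc _ _) ?_ ?_ ?_
    · intro s hs
      exact (hfd s (h1.trans_le hs.1)).continuousAt.continuousWithinAt
    · intro s hs
      rw [interior_Icc] at hs
      exact (hfd s (h1.trans hs.1)).differentiableAt.differentiableWithinAt
    · intro s hs
      rw [interior_Icc] at hs
      have hs0 : 0 < s := h1.trans hs.1
      rw [(hfd s hs0).deriv]
      refine div_nonpos_of_nonpos_of_nonneg ?_ (by positivity)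
      have h3 := hup s ⟨hs.1.le, hs.2.le⟩
      have h4 : D s * s ^ (m + 1) - (Im T ν z s + B) * ((m + 1 : ℕ) * s ^ m)
          = s ^ m * (s * D s - (m + 1) * (Im T ν z s + B)) := by
        push_cast; ring
      rw [h4]
      refine mul_nonpos_of_nonneg_of_nonpos (by positivity) ?_
      have : (0:ℝ) ≤ m * B := by positivity
      nlinarith
  have h3 := hanti ⟨le_rfl, h12⟩ ⟨h12, le_rfl⟩ h12
  rw [hf] at h3
  simp only at h3
  have h2 : 0 < r₂ := h1.trans_le h12
  rw [div_le_div_iff₀ (by positivity) (by positivity)] at h3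
  rw [div_pow, div_mul_eq_mul_div, le_div_iff₀ (by positivity)]
  linarith

/-- hypotheses of the chain lemma -/
structure Chn (m : ℕ) (T : Submodule ℝ E) (G : Set E) (h : ℝ) (ν : Measure E)
    (P : E → E →L[ℝ] E) (S : Set E) (θ : E → ℕ) (J : E → ℝ) (z : E) (r κ : ℝ) (e : E → ℝ) :
    Prop where
  int : IntCyl m T G h ν P S θ J
  mem : z ∈ T
  pos : 0 < r
  sub : ball z r ⊆ G
  nonneg : ∀ y, 0 ≤ e y
  intg : IntegrableOn e (cyl T z r) ν
  kap : 0 ≤ κ
  le : ∀ᵐ y ∂ν, y ∈ cyl T z r → INT.tilt P T y ^ 2 ≤ κ + e y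

section

variable {κ : ℝ} {e : E → ℝ} {Q : ℕ}

lemma star_mem (hx : x ∈ T) : T.starProjection x = x :=
  Submodule.starProjection_eq_self_iff.2 hx

/-- planar energy from the relative one -/
lemma X2_le (hC : CylStat m T G h ν P) (he : ∀ y, 0 ≤ e y) {A : Set E} (hA : MeasurableSet A)
    (hei : IntegrableOn e A ν) (hle : ∀ᵐ y ∂ν, y ∈ A → INT.tilt P T y ^ 2 ≤ κ + e y) :
    ∫ y in A, INT.tilt P T y ^ 2 ∂ν ≤ κ * ν.real A + ∫ y in A, e y ∂ν := by
  have := hC.fin
  have hL := locStat_of_cylStat hC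
  calc ∫ y in A, INT.tilt P T y ^ 2 ∂ν ≤ ∫ y in A, (κ + e y) ∂ν := by
        refine setIntegral_mono_on_ae (integrable_tilt_sq hL).integrableOn
          ((integrable_const κ).integrableOn.add hei) hA hle
    _ = _ := by
        rw [integral_add (integrable_const κ).integrableOn hei]
        simp [mul_comm]

/-- constants -/
lemma htot_le_of_near (h : |htot m T ν y s / cg m - Q| ≤ 1 / 3) :
    htot m T ν y s ≤ cg m * (Q + 1) := by
  have hcg := cg_pos m
  have := (abs_le.1 h).2
  rw [sub_le_iff_le_add, div_le_iff₀ hcg] at this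
  nlinarith

/-- mass of the larger cylinder -/
noncomputable def MC (m Q : ℕ) : ℝ := 2 * (8 ^ (m + 1) * (cg m * (Q + 1) * 2 ^ m + 1))

lemma MC_pos (m Q : ℕ) : 0 < MC m Q := by
  have := cg_pos m; unfold MC; positivity

lemma Chn.mass (H : Chn m T G h ν P S θ J z r κ e) (hy : y ∈ T) {ρ : ℝ} (hρ : 0 < ρ)
    (hyz : ‖y - z‖ + 16 * ρ < r) (hκ1 : 5 / 2 * Module.finrank ℝ E * κ * (m + 4) ≤ 1)
    (hI : 10 * Module.finrank ℝ E * ∫ y in cyl T z r, e y ∂ν ≤ ρ ^ m)
    (hnear : |htot m T ν y (2 * ρ) / cg m - Q| ≤ 1 / 3) :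
    ν.real (cyl T y (8 * ρ)) ≤ MC m Q * ρ ^ m := by
  have := H.int.stat.fin
  have hpz := star_mem H.mem
  have hpy := star_mem hy
  have hsub : cyl T y (16 * ρ) ⊆ cyl T z r := by
    refine INTM.cyl_subset ?_
    rw [hpz, hpy, dist_eq_norm]; exact hyz.le
  have h1 := Im_growth (z := y) H.int.stat (r₁ := 2 * ρ) (r₂ := 16 * ρ) (by positivity)
    (by linarith) (by
      rw [hpy]
      refine Subset.trans (closedBall_subset_ball' ?_) H.sub
      rw [dist_eq_norm]; linarith) H.nonneg H.kap hκ1 (B := ρ ^ m)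
    (H.intg.mono_set hsub) (H.le.mono fun w hw hw' => hw (hsub hw')) (by
      refine le_trans ?_ hI
      have := mono_e H.nonneg hsub H.intg
      gcongr)
  have h2 : Im T ν y (2 * ρ) ≤ cg m * (Q + 1) * (2 * ρ) ^ m := by
    have := htot_le_of_near hnear
    rwa [INTM.htot_eq, div_le_iff₀ (by positivity)] at this
  have h3 : (16 * ρ / (2 * ρ)) = 8 := by field_simp; norm_num
  rw [h3] at h1
  have h4 := INTM.mass_le_two (T := T) (ν := ν) (x := y) (m := m) (s := 8 * ρ) (by positivity)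
  have h5 : (2:ℝ) * (8 * ρ) = 16 * ρ := by ring
  rw [h5, INTM.htot_eq, div_mul_cancel₀ _ (by positivity)] at h4
  have h6 : 0 ≤ ρ ^ m := by positivity
  calc ν.real (cyl T y (8 * ρ)) ≤ 2 * Im T ν y (16 * ρ) := h4
    _ ≤ 2 * (8 ^ (m + 1) * (Im T ν y (2 * ρ) + ρ ^ m)) := by linarith
    _ ≤ 2 * (8 ^ (m + 1) * (cg m * (Q + 1) * (2 * ρ) ^ m + ρ ^ m)) := by gcongr
    _ = MC m Q * ρ ^ m := by unfold MC; rw [mul_pow]; ring

lemma Chn.energy (H : Chn m T G h ν P S θ J z r κ e) (hy : y ∈ T) {ρ δ : ℝ} (hρ : 0 < ρ)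
    (hyz : ‖y - z‖ + 16 * ρ < r) (hm : ν.real (cyl T y (8 * ρ)) ≤ MC m Q * ρ ^ m)
    (hκ : κ * MC m Q ≤ δ / 2) (hI : ∫ y in cyl T z r, e y ∂ν ≤ δ / 2 * ρ ^ m) :
    X2 T ν P y (8 * ρ) ≤ δ * ρ ^ m := by
  have hpz := star_mem H.mem
  have hpy := star_mem hy
  have hsub : cyl T y (8 * ρ) ⊆ cyl T z r := by
    refine INTM.cyl_subset ?_
    rw [hpz, hpy, dist_eq_norm]; linarith
  have h1 := X2_le H.int.stat H.nonneg (INTM.isOpen_cyl (T := T) (x := y) (s := 8 * ρ)).measurableSet
    (H.intg.mono_set hsub) (H.le.mono fun w hw hw' => hw (hsub hw'))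
  have h2 := mono_e H.nonneg hsub H.intg
  have h3 := H.kap
  unfold X2
  calc ∫ w in cyl T y (8 * ρ), INT.tilt P T w ^ 2 ∂ν
      ≤ κ * ν.real (cyl T y (8 * ρ)) + ∫ w in cyl T y (8 * ρ), e w ∂ν := h1
    _ ≤ κ * (MC m Q * ρ ^ m) + δ / 2 * ρ ^ m := by
        have : κ * ν.real (cyl T y (8 * ρ)) ≤ κ * (MC m Q * ρ ^ m) := by gcongr
        linarith
    _ = (κ * MC m Q) * ρ ^ m + δ / 2 * ρ ^ m := by ring
    _ ≤ δ / 2 * ρ ^ m + δ / 2 * ρ ^ m := by gcongr
    _ = _ := by ring

/-- one step of the chain -/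
lemma Chn.step (H : Chn m T G h ν P S θ J z r κ e) {δ : ℝ} (hδN : ∀ (T : Submodule ℝ E)
      (G : Set E) (h : ℝ) (ν : Measure E) (P : E → E →L[ℝ] E) (S : Set E)
      (θ : E → ℕ) (J : E → ℝ), IntCyl m T G h ν P S θ J → ∀ (z : E) (r : ℝ), 0 < r →
      ball (T.starProjection z) (2 * r) ⊆ G → ν.real (cyl T z (2 * r)) ≤ MC m Q * r ^ m →
      INT.exc m T ν P z (2 * r) ≤ δ → ∃ q : ℕ, |htot m T ν z r / cg m - q| ≤ 1 / 12)
    (hδ9 : 9 * (Module.finrank ℝ E + 1) * δ ≤ cg m / 12) (hδ0 : 0 ≤ δ)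
    (hy : y ∈ T) (hx : x ∈ T) {ρ ρ' : ℝ} (hρ : 0 < ρ)
    (hyz : ‖y - z‖ + 16 * ρ < r) (hxy : ‖x - y‖ ≤ ρ) (h1 : ρ / 2 ≤ ρ') (h2 : ρ' ≤ ρ)
    (hm : ν.real (cyl T y (8 * ρ)) ≤ MC m Q * ρ ^ m) (hX : X2 T ν P y (8 * ρ) ≤ δ * ρ ^ m)
    (hnear : |htot m T ν y (2 * ρ) / cg m - Q| ≤ 1 / 3) :
    |htot m T ν x (2 * ρ') / cg m - Q| ≤ 1 / 3 := by
  have := H.int.stat.fin
  have hcg := cg_pos m
  have hpz := star_mem H.mem
  have hpy := star_mem hy
  have hpx := star_mem hx
  have hρ' : 0 < ρ' := by linarith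
  set N : ℝ := (Module.finrank ℝ E : ℝ) with hN
  have hN0 : 0 ≤ N := by positivity
  have hball : ball y (16 * ρ) ⊆ G := by
    refine Subset.trans (ball_subset_ball' ?_) H.sub
    rw [dist_eq_norm]; linarith
  have hX0 : 0 ≤ X2 T ν P y (8 * ρ) := X2_nonneg
  -- near integer at `x`
  have hs1 : cyl T x (2 * (2 * ρ')) ⊆ cyl T y (8 * ρ) := by
    refine INTM.cyl_subset ?_
    rw [hpx, hpy, dist_eq_norm]; linarith
  obtain ⟨q, hq⟩ := hδN T G h ν P S θ J H.int x (2 * ρ') (by positivity) (by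
      rw [hpx]
      refine Subset.trans (ball_subset_ball' ?_) hball
      rw [dist_eq_norm]; linarith) (by
      refine (measureReal_mono hs1).trans (hm.trans ?_)
      have := MC_pos m Q
      gcongr
      linarith) (by
      rw [INTM.exc_eq, div_le_iff₀ (by positivity)]
      refine (X2_mono H.int.stat hs1).trans (hX.trans ?_)
      gcongr
      linarith)
  -- translation
  have h3 := INTM.htot_translate (z := y) (z' := x) H.int.stat (r := 2 * ρ) (ρ := 3 * ρ)
    (by positivity) (by rw [map_sub, hpx, hpy]; linarith) (by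
      rw [hpy]; exact (closedBall_subset_ball (by linarith)).trans hball)
  rw [map_sub, hpx, hpy] at h3
  have h4 : X2 T ν P y (3 * ρ) ≤ δ * ρ ^ m :=
    (X2_mono H.int.stat (INTM.cyl_mono (by linarith))).trans hX
  have h40 : 0 ≤ X2 T ν P y (3 * ρ) := X2_nonneg
  have h5 : 4 * N * ‖x - y‖ * X2 T ν P y (3 * ρ) / (2 * ρ) ^ (m + 1) ≤ 4 * N * δ := by
    rw [div_le_iff₀ (by positivity)]
    calc 4 * N * ‖x - y‖ * X2 T ν P y (3 * ρ) ≤ 4 * N * ρ * (δ * ρ ^ m) := by
          gcongr
      _ = 4 * N * δ * (ρ ^ (m + 1)) := by rw [pow_succ]; ring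
      _ ≤ 4 * N * δ * ((2 * ρ) ^ (m + 1)) := by gcongr; linarith
  -- scale
  have h6 := INTM.htot_scale (z := x) H.int.stat (r₁ := 2 * ρ') (r₂ := 2 * ρ) (by positivity)
    (by linarith) (by
      rw [hpx]
      refine Subset.trans (closedBall_subset_ball' ?_) hball
      rw [dist_eq_norm]; linarith)
  have h7 : X2 T ν P x (2 * ρ) ≤ δ * ρ ^ m :=
    (X2_mono H.int.stat (INTM.cyl_subset (by
      rw [hpx, hpy, dist_eq_norm]; linarith))).trans hX
  have h8 : 5 * N * X2 T ν P x (2 * ρ) / (2 * ρ') ^ (m + 1) * (2 * ρ - 2 * ρ')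
      ≤ 5 * N * δ := by
    have h9 : 0 ≤ X2 T ν P x (2 * ρ) := X2_nonneg
    rw [div_mul_eq_mul_div, div_le_iff₀ (by positivity)]
    calc 5 * N * X2 T ν P x (2 * ρ) * (2 * ρ - 2 * ρ')
        ≤ 5 * N * (δ * ρ ^ m) * ρ := by
          have e1 : 2 * ρ - 2 * ρ' ≤ ρ := by linarith
          have e2 : 0 ≤ 2 * ρ - 2 * ρ' := by linarith
          gcongr
      _ = 5 * N * δ * ρ ^ (m + 1) := by rw [pow_succ]; ring
      _ ≤ 5 * N * δ * (2 * ρ') ^ (m + 1) := by gcongr; linarith
  have h9 := h3.trans h5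
  have h10 := h6.trans h8
  have h11 : |htot m T ν x (2 * ρ') - htot m T ν y (2 * ρ)| ≤ cg m / 12 := by
    have e1 : htot m T ν x (2 * ρ') - htot m T ν y (2 * ρ)
        = (htot m T ν x (2 * ρ) - htot m T ν y (2 * ρ))
          - (htot m T ν x (2 * ρ) - htot m T ν x (2 * ρ')) := by ring
    rw [e1]
    refine (abs_sub _ _).trans ?_
    have : 9 * (N + 1) * δ = 4 * N * δ + 5 * N * δ + 9 * δ := by ring
    linarith
  have h12 : |htot m T ν x (2 * ρ') / cg m - htot m T ν y (2 * ρ) / cg m| ≤ 1 / 12 := by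
    rw [← sub_div, abs_div, abs_of_pos hcg, div_le_iff₀ hcg]
    linarith
  have h13 : |(q:ℝ) - Q| < 1 := by
    rw [abs_lt]
    rw [abs_le] at hq h12 hnear
    constructor <;> linarith [hq.1, hq.2, h12.1, h12.2, hnear.1, hnear.2]
  have h14 : q = Q := by
    have h15 : |(q:ℤ) - Q| < 1 := by exact_mod_cast h13
    have := Int.abs_lt_one_iff.1 h15
    omega
  rw [h14] at hq
  exact hq.trans (by norm_num)


end

end Vale.Agent.P214.INTW
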