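import Vale.Agent.P214.INTW.Chain
import Vale.Agent.P214.INT.MMain

/-!
# P214, block INT-W: the chain lemma
-/

open Set Filter Topology MeasureTheory Metric
open scoped RealInnerProductSpace ENNReal

namespace Vale.Agent.P214.INTW

open Vale.Agent.P214 Vale.Agent.P214.FV Vale.Agent.P214.INT Vale.Agent.P214.INTM

set_option linter.all false

variable {E : Type*} [NormedAddCommGroup E] [InnerProductSpace ℝ E] [FiniteDimensional ℝ E]
  [MeasurableSpace E] [BorelSpace E]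

variable {T : Submodule ℝ E} {z x y v : E} {r s h : ℝ} {m : ℕ} {G : Set E} {ν : Measure E}
  {P : E → E →L[ℝ] E} {S : Set E} {θ : E → ℕ} {J : E → ℝ} {κ : ℝ} {e : E → ℝ} {Q : ℕ}

/-- **the chain lemma** -/
theorem chain (m Q : ℕ) {δ : ℝ} (hδ : 0 < δ) : ∃ ε : ℝ, 0 < ε ∧
    ∀ (T : Submodule ℝ E) (G : Set E) (h : ℝ) (ν : Measure E) (P : E → E →L[ℝ] E) (S : Set E)
      (θ : E → ℕ) (J : E → ℝ) (z : E) (r κ : ℝ) (e : E → ℝ), Chn m T G h ν P S θ J z r κ e →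
      κ ≤ ε → ∀ t, 0 < t → ∫ y in cyl T z r, e y ∂ν ≤ ε * t ^ m →
      |htot m T ν z (2 * (r / 32)) / cg m - Q| ≤ 1 / 3 →
      ∀ x ∈ T, ∀ ρ, t ≤ ρ → ‖x - z‖ + 32 * ρ ≤ r →
        |htot m T ν x (2 * ρ) / cg m - Q| ≤ 1 / 3 ∧
        ν.real (cyl T x (8 * ρ)) ≤ MC m Q * ρ ^ m ∧ X2 T ν P x (8 * ρ) ≤ δ * ρ ^ m := by
  have hcg := cg_pos m
  have hMC := MC_pos m Q
  obtain ⟨δ₁, hδ₁, HN⟩ := INTM.thmN (E := E) m (MC m Q) (1 / 12) hMC (by norm_num)
  set N : ℝ := (Module.finrank ℝ E : ℝ) with hN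
  have hN0 : 0 ≤ N := by positivity
  set δ₂ : ℝ := min δ (min δ₁ (cg m / (12 * (9 * (N + 1))))) with hδ₂
  have hδ₂0 : 0 < δ₂ := lt_min hδ (lt_min hδ₁ (by positivity))
  have hd1 : δ₂ ≤ δ := min_le_left _ _
  have hd2 : δ₂ ≤ δ₁ := (min_le_right _ _).trans (min_le_left _ _)
  have hd3 : 9 * (N + 1) * δ₂ ≤ cg m / 12 := by
    have h1 : δ₂ ≤ cg m / (12 * (9 * (N + 1))) := (min_le_right _ _).trans (min_le_right _ _)
    rw [le_div_iff₀ (by positivity)] at h1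
    linarith
  set ε : ℝ := min (δ₂ / 2 / MC m Q) (min (δ₂ / 2) (min (1 / (10 * (N + 1)))
    (1 / (5 / 2 * (N + 1) * (m + 4))))) with hε
  have hε0 : 0 < ε := lt_min (by positivity) (lt_min (by positivity)
    (lt_min (by positivity) (by positivity)))
  have he1 : ε * MC m Q ≤ δ₂ / 2 := by
    have h1 : ε ≤ δ₂ / 2 / MC m Q := min_le_left _ _
    rwa [le_div_iff₀ hMC] at h1
  have he2 : ε ≤ δ₂ / 2 := (min_le_right _ _).trans (min_le_left _ _)
  have he3 : 10 * N * ε ≤ 1 := by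
    have h1 : ε ≤ 1 / (10 * (N + 1)) :=
      (min_le_right _ _).trans ((min_le_right _ _).trans (min_le_left _ _))
    rw [le_div_iff₀ (by positivity)] at h1
    nlinarith
  have he4 : 5 / 2 * N * ε * (m + 4) ≤ 1 := by
    have h1 : ε ≤ 1 / (5 / 2 * (N + 1) * (m + 4)) :=
      (min_le_right _ _).trans ((min_le_right _ _).trans (min_le_right _ _))
    rw [le_div_iff₀ (by positivity)] at h1
    have hm4 : (0:ℝ) ≤ m + 4 := by positivity
    nlinarith [mul_nonneg hε0.le hm4]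
  refine ⟨ε, hε0, ?_⟩
  intro T G h ν P S θ J z r κ e H hκ t ht hI hnear x hx ρ htρ hxρ
  have hfin := H.int.stat.fin
  have hκ0 := H.kap
  have hκ1 : 5 / 2 * N * κ * (m + 4) ≤ 1 := le_trans (by gcongr) he4
  have hκ2 : κ * MC m Q ≤ δ₂ / 2 := le_trans (by gcongr) he1
  have hρ : 0 < ρ := ht.trans_le htρ
  have hI0 : 0 ≤ ∫ y in cyl T z r, e y ∂ν := integral_nonneg fun y => H.nonneg y
  have hr : 0 < r := H.pos
  -- everything at a point of the path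
  have main : ∀ y ∈ T, ∀ σ, t ≤ σ → ‖y - z‖ + 32 * σ ≤ r →
      |htot m T ν y (2 * σ) / cg m - Q| ≤ 1 / 3 →
      ν.real (cyl T y (8 * σ)) ≤ MC m Q * σ ^ m ∧ X2 T ν P y (8 * σ) ≤ δ₂ * σ ^ m := by
    intro y hy σ hσ hyz hn
    have hσ0 : 0 < σ := ht.trans_le hσ
    have h1 := H.mass (Q := Q) hy hσ0 (by linarith) hκ1 (by
      calc 10 * N * ∫ y in cyl T z r, e y ∂ν ≤ 10 * N * (ε * t ^ m) := by gcongr
        _ = (10 * N * ε) * t ^ m := by ring
        _ ≤ 1 * t ^ m := by gcongr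
        _ = t ^ m := one_mul _
        _ ≤ σ ^ m := by gcongr) hn
    refine ⟨h1, H.energy hy hσ0 (by linarith) h1 hκ2 ?_⟩
    calc ∫ y in cyl T z r, e y ∂ν ≤ ε * t ^ m := hI
      _ ≤ δ₂ / 2 * σ ^ m := by gcongr
  have step : ∀ y ∈ T, ∀ σ, t ≤ σ → ‖y - z‖ + 32 * σ ≤ r →
      |htot m T ν y (2 * σ) / cg m - Q| ≤ 1 / 3 → ∀ y' ∈ T, ∀ σ', ‖y' - y‖ ≤ σ → σ / 2 ≤ σ' →
      σ' ≤ σ → |htot m T ν y' (2 * σ') / cg m - Q| ≤ 1 / 3 := by
    intro y hy σ hσ hyz hn y' hy' σ' h1 h2 h3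
    have hσ0 : 0 < σ := ht.trans_le hσ
    obtain ⟨h4, h5⟩ := main y hy σ hσ hyz hn
    refine H.step (δ := δ₂) ?_ hd3 hδ₂0.le hy hy' hσ0 (by linarith) h1 h2 h3 h4 h5 hn
    intro T G h ν P S θ J hI z r hr hG hmass hexc
    exact HN T G h ν P S θ J hI z r hr hG hmass (hexc.trans hd2)
  -- the path
  obtain ⟨n, hn⟩ := exists_nat_gt (r / (t / 4))
  have hn0 : (0:ℝ) < n := lt_of_le_of_lt (by positivity) hn
  have hrn : r / n ≤ t / 4 := by
    rw [div_lt_iff₀ (by positivity)] at hn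
    rw [div_le_iff₀ hn0]; linarith
  have hρr : ρ ≤ r / 32 := by
    have := norm_nonneg (x - z); linarith
  have hpath : ∀ k : ℕ, k ≤ n → |htot m T ν (z + ((k:ℝ) / n) • (x - z))
      (2 * ((1 - (k:ℝ) / n) * (r / 32) + (k:ℝ) / n * ρ)) / cg m - Q| ≤ 1 / 3 := by
    intro k
    induction k with
    | zero => intro _; simpa using hnear
    | succ k ih =>
      intro hk
      have hk1 : (k:ℝ) / n ≤ 1 := by
        rw [div_le_one hn0]; exact_mod_cast (Nat.le_of_succ_le hk)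
      have hk0 : 0 ≤ (k:ℝ) / n := by positivity
      have hmem : ∀ a : ℝ, z + a • (x - z) ∈ T := fun a =>
        T.add_mem H.mem (T.smul_mem _ (T.sub_mem hx H.mem))
      set a : ℝ := (k:ℝ) / n with ha
      have hσt : t ≤ (1 - a) * (r / 32) + a * ρ := by
        have h1 : (1 - a) * t ≤ (1 - a) * (r / 32) :=
          mul_le_mul_of_nonneg_left (by linarith) (by linarith)
        have h2 : a * t ≤ a * ρ := mul_le_mul_of_nonneg_left htρ hk0
        linarith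
      have e1 : ((k + 1 : ℕ) : ℝ) / n = a + 1 / n := by rw [ha]; push_cast; ring
      have e2 : 1 / (n:ℝ) * r ≤ t / 4 := by rw [one_div_mul_eq_div]; exact hrn
      have e3 : 0 < 1 / (n:ℝ) := by positivity
      have hxz : ‖x - z‖ ≤ r := by linarith
      have e6 : 0 ≤ 1 / (n:ℝ) * ρ := by positivity
      have e7 : 0 ≤ 1 / (n:ℝ) * (r / 32 - ρ) := mul_nonneg e3.le (by linarith)
      rw [e1]
      refine step _ (hmem a) _ hσt ?_ (ih (Nat.le_of_succ_le hk)) _ (hmem _) _ ?_ ?_ ?_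
      · rw [add_sub_cancel_left, norm_smul, Real.norm_of_nonneg hk0]
        have h1 : a * (‖x - z‖ + 32 * ρ) ≤ a * r := mul_le_mul_of_nonneg_left hxρ hk0
        linarith
      · have e4 : z + (a + 1 / (n:ℝ)) • (x - z) - (z + a • (x - z)) = (1 / (n:ℝ)) • (x - z) := by
          rw [add_smul]; abel
        rw [e4, norm_smul, Real.norm_of_nonneg e3.le]
        have : 1 / (n:ℝ) * ‖x - z‖ ≤ 1 / n * r := by gcongr
        linarith
      · generalize 1 / (n:ℝ) = b at e2 e6 e7 ⊢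
        linarith
      · generalize 1 / (n:ℝ) = b at e2 e6 e7 ⊢
        linarith
  have hend := hpath n le_rfl
  rw [div_self hn0.ne', one_smul, add_sub_cancel] at hend
  have e5 : (1 - (1:ℝ)) * (r / 32) + 1 * ρ = ρ := by ring
  rw [e5] at hend
  obtain ⟨h1, h2⟩ := main x hx ρ htρ hxρ hend
  exact ⟨hend, h1, h2.trans (by gcongr)⟩

/-- the chain lemma in the form of `INT.Win` -/
theorem chain_win (m Q : ℕ) {δ : ℝ} (hδ : 0 < δ) : ∃ ε : ℝ, 0 < ε ∧
    ∀ (T : Submodule ℝ E) (G : Set E) (h : ℝ) (ν : Measure E) (P : E → E →L[ℝ] E) (S : Set E)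
      (θ : E → ℕ) (J : E → ℝ) (z : E) (r κ : ℝ) (e : E → ℝ), Chn m T G h ν P S θ J z r κ e →
      κ ≤ ε → ∀ t, 0 < t → ∫ y in cyl T z r, e y ∂ν ≤ ε * t ^ m →
      |htot m T ν z (2 * (r / 32)) / cg m - Q| ≤ 1 / 3 →
      ∀ x ∈ T, ∀ ρ, t ≤ ρ → ‖x - z‖ + 32 * ρ ≤ r →
        Win m Q δ T G h ν P S θ J x ρ := by
  obtain ⟨ε, hε, H⟩ := chain (E := E) m Q hδ
  refine ⟨ε, hε, ?_⟩
  intro T G h ν P S θ J z r κ e HC hκ t ht hI hnear x hx ρ htρ hxρ
  obtain ⟨h1, h2, h3⟩ := H T G h ν P S θ J z r κ e HC hκ t ht hI hnear x hx ρ htρ hxρ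
  have hρ : 0 < ρ := ht.trans_le htρ
  have hpx := star_mem hx
  refine ⟨HC.int, hx, hρ, ?_, h1, ?_⟩
  · unfold cyl
    refine preimage_mono (Subset.trans (ball_subset_ball' ?_) HC.sub)
    rw [hpx, dist_eq_norm]; linarith
  · rw [INTM.exc_eq, div_le_iff₀ (by positivity)]
    refine (X2_mono HC.int.stat (INTM.cyl_mono (by linarith))).trans (h3.trans ?_)
    gcongr
    linarith

end Vale.Agent.P214.INTW
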