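import Vale.Agent.P214.INTM.M3
import Vale.Agent.P214.KMS.Frame

/-!
# P214, block INT-W: splitting a base function into small cubes
-/

open MeasureTheory Set Filter Topology Metric
open scoped ENNReal NNReal RealInnerProductSpace ContDiff

set_option linter.all false

namespace Vale.Agent.P214.INTW

open Vale.Agent.P214 Vale.Agent.P214.FV Vale.Agent.P214.KMS

variable {E : Type*} [NormedAddCommGroup E] [InnerProductSpace ℝ E] [FiniteDimensional ℝ E]
  [MeasurableSpace E] [BorelSpace E] {m n : ℕ} {T : Submodule ℝ E}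

lemma lam_closedBall_lt_top (hT : Module.finrank ℝ T = m) (R : ℝ) :
    (μH[m].restrict (T : Set E)) (closedBall 0 R) < ⊤ := by
  have h1 := INTM.lam_closedBall_le (E := E) hT T.zero_mem (lt_max_of_lt_right one_pos : 0 < max R 1)
  exact (measure_mono (closedBall_subset_closedBall (le_max_left _ _))).trans_lt
    (h1.trans_lt ENNReal.ofReal_lt_top)

lemma integrable_T (hT : Module.finrank ℝ T = m) {f : E → ℝ} (hf : Measurable f) {K R : ℝ}
    (hb : ∀ x ∈ T, |f x| ≤ K) (h0 : ∀ x ∈ T, R ≤ ‖x‖ → f x = 0) :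
    Integrable f (μH[m].restrict (T : Set E)) := by
  have hTm : MeasurableSet (T : Set E) := T.closed_of_finiteDimensional.measurableSet
  have h1 : IntegrableOn f (closedBall 0 R) (μH[m].restrict (T : Set E)) := by
    have hfin : IsFiniteMeasure ((μH[m].restrict (T : Set E)).restrict (closedBall 0 R)) :=
      ⟨by rw [Measure.restrict_apply_univ]; exact lam_closedBall_lt_top hT R⟩
    refine Integrable.mono' (integrable_const K) hf.aestronglyMeasurable ?_
    refine ae_restrict_of_ae ?_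
    filter_upwards [ae_restrict_mem hTm] with x hx
    rw [Real.norm_eq_abs]; exact hb x hx
  have h2 := (integrable_indicator_iff isClosed_closedBall.measurableSet).2 h1
  refine h2.congr ?_
  filter_upwards [ae_restrict_mem hTm] with x hx
  by_cases hxR : x ∈ closedBall (0:E) R
  · rw [indicator_of_mem hxR]
  · rw [indicator_of_notMem hxR]
    rw [mem_closedBall, dist_zero_right, not_le] at hxR
    exact (h0 x hx hxR.le).symm

/-- the index of the cube containing the base point -/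
noncomputable def kf (F : WIN.Frame m n T) (h : ℝ) (x : E) (i : Fin m) : ℤ := ⌊F.xc x i / h⌋

lemma measurable_kf (F : WIN.Frame m n T) (h : ℝ) : Measurable (kf F h) := by
  refine measurable_pi_lambda _ fun i => ?_
  unfold kf
  have h1 : Continuous fun x : E => F.xc x i := by
    have h2 : Continuous fun x : E => (xcL F x) i :=
      (EuclideanSpace.proj (𝕜 := ℝ) i).continuous.comp (xcL F).continuous
    exact h2
  exact Int.measurable_floor.comp (h1.div_const h).measurable

/-- restriction of a function to one cube -/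
noncomputable def cub (F : WIN.Frame m n T) (h : ℝ) (k : Fin m → ℤ) (ψ : E → ℝ) (x : E) : ℝ :=
  (kf F h ⁻¹' {k}).indicator ψ x

lemma measurable_cub (F : WIN.Frame m n T) (h : ℝ) (k : Fin m → ℤ) {ψ : E → ℝ}
    (hψ : Measurable ψ) : Measurable (cub F h k ψ) :=
  hψ.indicator (measurable_kf F h (measurableSet_singleton k))

lemma abs_cub_le (F : WIN.Frame m n T) (h : ℝ) (k : Fin m → ℤ) (ψ : E → ℝ) (x : E) :
    |cub F h k ψ x| ≤ |ψ x| := by
  unfold cub
  by_cases hx : x ∈ kf F h ⁻¹' {k}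
  · rw [indicator_of_mem hx]
  · rw [indicator_of_notMem hx, abs_zero]; exact abs_nonneg _

/-- the indices -/
noncomputable def idx (m : ℕ) (h R : ℝ) : Finset (Fin m → ℤ) :=
  Fintype.piFinset fun _ => Finset.Icc (-⌈R / h⌉) ⌈R / h⌉

lemma card_idx (m : ℕ) {h R : ℝ} (hh : 0 < h) (hR : 0 ≤ R) :
    ((idx m h R).card : ℝ) ≤ (2 * (R / h) + 3) ^ m := by
  unfold idx
  rw [Fintype.card_piFinset]
  simp only [Int.card_Icc, Finset.prod_const, Finset.card_univ, Fintype.card_fin]
  rw [Nat.cast_pow]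
  have h0 : (0:ℤ) ≤ ⌈R / h⌉ := Int.ceil_nonneg (by positivity)
  have h1 : (((⌈R / h⌉ + 1 - -⌈R / h⌉).toNat : ℕ) : ℝ) = 2 * (⌈R / h⌉ : ℝ) + 1 := by
    have h2 : (((⌈R / h⌉ + 1 - -⌈R / h⌉).toNat : ℕ) : ℤ) = ⌈R / h⌉ + 1 - -⌈R / h⌉ :=
      Int.toNat_of_nonneg (by linarith)
    have h3 : (((⌈R / h⌉ + 1 - -⌈R / h⌉).toNat : ℕ) : ℝ)
        = ((⌈R / h⌉ + 1 - -⌈R / h⌉ : ℤ) : ℝ) := by exact_mod_cast h2
    rw [h3]; push_cast; ring
  rw [h1]
  have h2 : (⌈R / h⌉ : ℝ) < R / h + 1 := Int.ceil_lt_add_one _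
  have h3 : (0:ℝ) ≤ (⌈R / h⌉ : ℝ) := by exact_mod_cast h0
  exact pow_le_pow_left₀ (by linarith) (by linarith) m

lemma kf_mem_idx (F : WIN.Frame m n T) {h R : ℝ} (hh : 0 < h) {x : E}
    (hx : ‖T.starProjection x‖ < R) : kf F h x ∈ idx m h R := by
  unfold idx
  rw [Fintype.mem_piFinset]
  intro i
  rw [Finset.mem_Icc]
  have h1 : |F.xc x i| < R := by
    have h2 := EuclideanSpace.norm_eq (F.xc x)
    have h3 : |F.xc x i| ≤ ‖F.xc x‖ := by
      have := PiLp.norm_apply_le (F.xc x) i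
      rwa [Real.norm_eq_abs] at this
    rw [norm_xc] at h3
    exact h3.trans_lt hx
  rw [abs_lt] at h1
  unfold kf
  constructor
  · have h2 : (-(⌈R / h⌉ : ℤ) : ℝ) ≤ F.xc x i / h := by
      have h3 : R / h ≤ (⌈R / h⌉ : ℝ) := Int.le_ceil _
      have h4 : -(R / h) ≤ F.xc x i / h := by
        rw [← neg_div]; gcongr; exact h1.1.le
      push_cast
      linarith
    exact Int.le_floor.2 (by exact_mod_cast h2)
  · have h2 : ⌊F.xc x i / h⌋ ≤ ⌊R / h⌋ := Int.floor_le_floor (by gcongr; exact h1.2.le)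
    exact h2.trans (Int.floor_le_ceil _)

lemma sum_cub (F : WIN.Frame m n T) {h R : ℝ} (hh : 0 < h) {ψ : E → ℝ}
    (hψ0 : ∀ x ∈ T, R ≤ ‖x‖ → ψ x = 0) {x : E} (hx : x ∈ T) :
    ψ x = ∑ k ∈ idx m h R, cub F h k ψ x := by
  rcases le_or_gt R ‖x‖ with h1 | h1
  · have h2 := hψ0 x hx h1
    rw [h2]
    refine (Finset.sum_eq_zero fun k _ => ?_).symm
    have := abs_cub_le F h k ψ x
    rw [h2, abs_zero] at this
    exact abs_nonpos_iff.1 this
  · have h2 : ‖T.starProjection x‖ < R := by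
      rwa [Submodule.starProjection_eq_self_iff.2 hx]
    rw [Finset.sum_eq_single (kf F h x)]
    · unfold cub
      rw [indicator_of_mem (show x ∈ kf F h ⁻¹' {kf F h x} from rfl)]
    · intro k _ hk
      unfold cub
      rw [indicator_of_notMem fun h3 => hk h3.symm]
    · intro h3; exact absurd (kf_mem_idx F hh h2) h3

/-- **splitting into cubes** -/
theorem grid_le (F : WIN.Frame m n T) (hT : Module.finrank ℝ T = m) {ν : Measure E}
    [IsFiniteMeasure ν] {h R b M : ℝ} (hh : 0 < h) (hR : 0 ≤ R) {α : E → ℝ} (hα : Continuous α)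
    {ψ : E → ℝ} (hψ : Measurable ψ) (hM : ∀ x ∈ T, |ψ x| ≤ M)
    (hψ0 : ∀ x ∈ T, R ≤ ‖x‖ → ψ x = 0) (Q : ℝ)
    (H : ∀ k, |∫ y, cub F h k ψ (T.starProjection y) ∂ν
      - Q * ∫ x in (T : Set E), cub F h k ψ x * α x ∂μH[m]| ≤ b) :
    |∫ y, ψ (T.starProjection y) ∂ν - Q * ∫ x in (T : Set E), ψ x * α x ∂μH[m]|
      ≤ (2 * (R / h) + 3) ^ m * b := by
  have hπ : Measurable (T.starProjection : E → E) := T.starProjection.continuous.measurable
  have hTm : MeasurableSet (T : Set E) := T.closed_of_finiteDimensional.measurableSet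
  obtain ⟨K, hK⟩ := (isCompact_closedBall (0:E) R).exists_bound_of_continuousOn hα.continuousOn
  have hM0 : 0 ≤ M := (abs_nonneg _).trans (hM 0 T.zero_mem)
  have i1 : ∀ k, Integrable (fun y => cub F h k ψ (T.starProjection y)) ν := by
    intro k
    refine Integrable.mono' (integrable_const M)
      ((measurable_cub F h k hψ).comp hπ).aestronglyMeasurable (Eventually.of_forall fun y => ?_)
    rw [Real.norm_eq_abs]
    exact (abs_cub_le F h k ψ _).trans (hM _ (Submodule.starProjection_apply_mem _ _))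
  have i2 : ∀ k, Integrable (fun x => cub F h k ψ x * α x) (μH[m].restrict (T : Set E)) := by
    intro k
    refine integrable_T hT ((measurable_cub F h k hψ).mul hα.measurable)
      (K := M * |K|) (R := R) (fun x hx => ?_) (fun x hx hxR => ?_)
    · rcases le_or_gt R ‖x‖ with h1 | h1
      · have h2 := abs_cub_le F h k ψ x
        rw [hψ0 x hx h1, abs_zero] at h2
        rw [abs_nonpos_iff.1 h2, zero_mul, abs_zero]; positivity
      · rw [abs_mul]
        have h2 := hK x (by rw [mem_closedBall, dist_zero_right]; exact h1.le)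
        rw [Real.norm_eq_abs] at h2
        have h3 := (abs_cub_le F h k ψ x).trans (hM x hx)
        exact mul_le_mul h3 (h2.trans (le_abs_self _)) (abs_nonneg _) hM0
    · have h2 := abs_cub_le F h k ψ x
      rw [hψ0 x hx hxR, abs_zero] at h2
      rw [abs_nonpos_iff.1 h2, zero_mul]
  have e1 : ∫ y, ψ (T.starProjection y) ∂ν
      = ∑ k ∈ idx m h R, ∫ y, cub F h k ψ (T.starProjection y) ∂ν := by
    rw [← integral_finsetSum _ fun k _ => i1 k]
    refine integral_congr_ae (Eventually.of_forall fun y => ?_)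
    exact sum_cub F hh hψ0 (Submodule.starProjection_apply_mem _ _)
  have e2 : ∫ x in (T : Set E), ψ x * α x ∂μH[m]
      = ∑ k ∈ idx m h R, ∫ x in (T : Set E), cub F h k ψ x * α x ∂μH[m] := by
    rw [← integral_finsetSum _ fun k _ => i2 k]
    refine setIntegral_congr_fun hTm fun x hx => ?_
    rw [← Finset.sum_mul, ← sum_cub F hh hψ0 hx]
  rw [e1, e2, Finset.mul_sum, ← Finset.sum_sub_distrib]
  calc |∑ k ∈ idx m h R, (∫ y, cub F h k ψ (T.starProjection y) ∂ν
        - Q * ∫ x in (T : Set E), cub F h k ψ x * α x ∂μH[m])|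
      ≤ ∑ k ∈ idx m h R, |∫ y, cub F h k ψ (T.starProjection y) ∂ν
        - Q * ∫ x in (T : Set E), cub F h k ψ x * α x ∂μH[m]| := Finset.abs_sum_le_sum_abs _ _
    _ ≤ ∑ k ∈ idx m h R, b := Finset.sum_le_sum fun k _ => H k
    _ = (idx m h R).card * b := by rw [Finset.sum_const, nsmul_eq_mul]
    _ ≤ _ := by
        have hb : 0 ≤ b := (abs_nonneg _).trans (H 0)
        gcongr
        exact card_idx m hh hR

/-- the corner of a cube -/
noncomputable def cor (F : WIN.Frame m n T) (h : ℝ) (k : Fin m → ℤ) : E :=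
  F.up (WithLp.toLp 2 fun i => h * (k i : ℝ))

lemma cor_mem (F : WIN.Frame m n T) (h : ℝ) (k : Fin m → ℤ) : cor F h k ∈ T := up_mem F _

lemma dist_cor (F : WIN.Frame m n T) {h : ℝ} (hh : 0 < h) {x : E} (hx : x ∈ T) :
    ‖x - cor F h (kf F h x)‖ < (m + 1) * h := by
  have h1 : ‖x - cor F h (kf F h x)‖ = ‖F.xc x - F.xc (cor F h (kf F h x))‖ := by
    rw [norm_xc_sub, Submodule.starProjection_eq_self_iff.2 hx,
      Submodule.starProjection_eq_self_iff.2 (cor_mem F h _)]
  rw [h1]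
  unfold cor
  rw [xc_up]
  have h2 : ∀ i, |(F.xc x - WithLp.toLp 2 fun i => h * (kf F h x i : ℝ)) i| ≤ h := by
    intro i
    have e1 : (F.xc x - WithLp.toLp 2 fun i => h * (kf F h x i : ℝ)) i
        = F.xc x i - h * (kf F h x i : ℝ) := rfl
    rw [e1]
    unfold kf
    have h3 := Int.floor_le (F.xc x i / h)
    have h4 := Int.lt_floor_add_one (F.xc x i / h)
    rw [le_div_iff₀ hh] at h3
    rw [div_lt_iff₀ hh] at h4
    rw [abs_le]
    constructor <;> nlinarith
  have h3 : ‖F.xc x - WithLp.toLp 2 fun i => h * (kf F h x i : ℝ)‖ ^ 2 ≤ m * h ^ 2 := by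
    rw [EuclideanSpace.norm_sq_eq]
    calc ∑ i, ‖(F.xc x - WithLp.toLp 2 fun i => h * (kf F h x i : ℝ)) i‖ ^ 2
        ≤ ∑ _i : Fin m, h ^ 2 := by
          refine Finset.sum_le_sum fun i _ => ?_
          rw [Real.norm_eq_abs]
          have := h2 i
          gcongr
      _ = m * h ^ 2 := by simp
  have h4 : (m:ℝ) * h ^ 2 < ((m + 1) * h) ^ 2 := by
    have : (0:ℝ) ≤ m := by positivity
    nlinarith [mul_pos hh hh, mul_nonneg this (mul_pos hh hh).le,
      mul_nonneg this (mul_nonneg this (mul_pos hh hh).le)]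
  exact lt_of_pow_lt_pow_left₀ 2 (by positivity) (h3.trans_lt h4)

end Vale.Agent.P214.INTW
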