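import Vale.Agent.P214.INTW.Alg
import Vale.Agent.P214.INT.Def

/-!
# P214, block INT-W: mass of `V` against the mass of the reference graph

`intW_abs`: if the number of sheets is `Q` almost everywhere on `B ∩ X`, then for a bounded Borel
function `ψ` of the base variable supported in `B`
`|∫ ψ(p y) dν - Q ∫_T ψ √det(1 + Dw^*Dw)| ≤ C(m) sup|ψ| (∫_{p⁻¹ B} √e_w dν + (Q+1) b)`,
where `b` bounds the measures of `B \ X` and of the part of `ν` above it.
-/

open MeasureTheory Set Filter Topology Metric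
open scoped ENNReal NNReal RealInnerProductSpace

set_option linter.all false

namespace Vale.Agent.P214.INTW

open Vale.Agent.P214.FV Vale.Agent.P214.AREA Vale.Agent.P214.KMS

variable {E : Type*} [NormedAddCommGroup E] [InnerProductSpace ℝ E] [FiniteDimensional ℝ E]
  [MeasurableSpace E] [BorelSpace E] {m : ℕ}

lemma ew_le' {T S : Submodule ℝ E} (hS : Module.finrank ℝ S = m) {A : E →L[ℝ] E} (hA1 : ‖A‖ ≤ 1) :
    ew T A S.starProjection ≤ 4 * m := by
  have h1 : ew T A S.starProjection ≤ (1 + ‖A‖) ^ 2 * Module.finrank ℝ S := by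
    rw [← sum_norm_sq_star S, ew, hs, Finset.mul_sum]
    refine Finset.sum_le_sum fun k _ => ?_
    simp only [ContinuousLinearMap.comp_apply]
    set y := S.starProjection (stdOrthonormalBasis ℝ E k)
    rw [← mul_pow]
    have : ‖slp T A y‖ ≤ (1 + ‖A‖) * ‖y‖ := by
      have h1 : slp T A y = FV.co T y - A y := by rw [slp]; simp
      rw [h1]
      calc ‖FV.co T y - A y‖ ≤ ‖FV.co T y‖ + ‖A y‖ := norm_sub_le _ _
        _ ≤ ‖y‖ + ‖A‖ * ‖y‖ := add_le_add (norm_co_le T y) (A.le_opNorm y)
        _ = _ := by ring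
    gcongr
  rw [hS] at h1
  refine h1.trans ?_
  have h2 : (1 + ‖A‖) ^ 2 ≤ 4 := by nlinarith [norm_nonneg A]
  gcongr

lemma ew_nonneg (T : Submodule ℝ E) (A B : E →L[ℝ] E) : 0 ≤ ew T A B := by
  rw [ew, hs]; exact Finset.sum_nonneg fun _ _ => by positivity

/-- bound of the area element -/
noncomputable def arC (m : ℕ) : ℝ := 1 + jaC m * (2 * √m)

lemma arC_pos (m : ℕ) : 0 < arC m := by
  have := jaC_nonneg m
  unfold arC
  positivity

lemma one_le_arC (m : ℕ) : 1 ≤ arC m := by
  have := jaC_nonneg m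
  unfold arC
  have : 0 ≤ jaC m * (2 * √m) := by positivity
  linarith

lemma ar_le {T : Submodule ℝ E} (hT : Module.finrank ℝ T = m) {A : E →L[ℝ] E} (hA : Slope T A)
    (hA1 : ‖A‖ ≤ 1) : ar A ≤ arC m := by
  have h1 := jac_area hT hT hA hA1
  have h2 : jac (proj T) (proj T) = 1 := by
    have hb := jac_bounds hT hT
    have h3 : FV.tilt T T.starProjection = 0 := by
      rw [tilt_star]
      have : T.starProjection.comp T.starProjection = T.starProjection := by
        ext v; simp [star_self]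
      rw [this, tr_starProjection]; ring
    rw [h3] at hb
    obtain ⟨b1, b2, -⟩ := hb
    linarith
  rw [h2, one_mul] at h1
  have h3 := (abs_le.1 h1).2
  have h4 : √(ew T A T.starProjection) ≤ 2 * √m := by
    rw [show (2:ℝ) * √m = √(4 * m) by
      rw [Real.sqrt_mul (by norm_num), show (4:ℝ) = 2 ^ 2 by norm_num,
        Real.sqrt_sq (by norm_num)]]
    exact Real.sqrt_le_sqrt (ew_le' hT hA1)
  have h5 := jaC_nonneg m
  unfold arC
  have : jaC m * √(ew T A T.starProjection) ≤ jaC m * (2 * √m) := by gcongr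
  linarith

lemma continuous_ar : Continuous (ar : (E →L[ℝ] E) → ℝ) := by
  unfold ar
  have h1 : Continuous fun A : E →L[ℝ] E => (ContinuousLinearMap.id ℝ E + (FM.adj A).comp A) := by
    refine continuous_const.add ?_
    exact (FM.adj.continuous).clm_comp continuous_id
  exact (ContinuousLinearMap.continuous_det.comp h1).sqrt

lemma continuous_ew (T : Submodule ℝ E) :
    Continuous fun p : (E →L[ℝ] E) × (E →L[ℝ] E) => ew T p.1 p.2 := by
  unfold ew hs slp
  fun_prop

lemma aesm_sqrt_ew {T : Submodule ℝ E} {ν : Measure E} {A P : E → E →L[ℝ] E}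
    (hA : Continuous A) (hP : AEStronglyMeasurable P ν) :
    AEStronglyMeasurable (fun y => √(ew T (A y) (P y))) ν := by
  have h0 : AEStronglyMeasurable A ν := hA.aestronglyMeasurable
  have h1 : AEStronglyMeasurable (fun y => (A y, P y)) ν := h0.prodMk hP
  have h2 : Continuous fun p : (E →L[ℝ] E) × (E →L[ℝ] E) => √(ew T p.1 p.2) :=
    (continuous_ew T).sqrt
  have h3 := h2.comp_aestronglyMeasurable h1
  exact h3

variable {T : Submodule ℝ E} {G : Set E} {h : ℝ} {ν : Measure E} {P : E → E →L[ℝ] E}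
  {S : Set E} {θ : E → ℕ} {w : E → E}

/-- the reference for this block: `C¹`, base dependent, slope operators -/
structure WRef (T : Submodule ℝ E) (w : E → E) (B : Set E) : Prop where
  cont : Continuous (fderiv ℝ w)
  slope : ∀ y, Slope T (fderiv ℝ w y)
  base : ∀ y, fderiv ℝ w (T.starProjection y) = fderiv ℝ w y
  le : ∀ y, T.starProjection y ∈ B → ‖fderiv ℝ w y‖ ≤ 1

/-- the push-forward of the projected area -/
noncomputable def sg (T : Submodule ℝ E) (ν : Measure E) (P : E → E →L[ℝ] E) : Measure E :=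
  (ν.withDensity fun y => ENNReal.ofReal (jac (proj T) (P y))).map T.starProjection

section

variable (hI : INT.IntCyl m T G h ν P S θ (fun y => jac (proj T) (P y)))

include hI

lemma sg_apply {A : Set E} (hA : MeasurableSet A) :
    sg T ν P A = ∫⁻ x in (T : Set E), A.indicator 1 x * INT.sheets T S θ univ x ∂μH[m] := by
  have hπ : Measurable (T.starProjection : E → E) := T.starProjection.continuous.measurable
  have h1 := hI.area univ MeasurableSet.univ (A.indicator 1) (measurable_one.indicator hA)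
  rw [Measure.restrict_univ] at h1
  rw [← h1]
  unfold sg
  rw [Measure.map_apply hπ hA, withDensity_apply _ (hπ hA), ← lintegral_indicator (hπ hA)]
  refine lintegral_congr fun y => ?_
  by_cases hy : T.starProjection y ∈ A
  · rw [indicator_of_mem (show y ∈ T.starProjection ⁻¹' A from hy), indicator_of_mem hy]; simp
  · rw [indicator_of_notMem (show y ∉ T.starProjection ⁻¹' A from hy), indicator_of_notMem hy]
    simp

lemma sg_le {A : Set E} (hA : MeasurableSet A) : sg T ν P A ≤ ν (T.starProjection ⁻¹' A) := by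
  have hπ : Measurable (T.starProjection : E → E) := T.starProjection.continuous.measurable
  unfold sg
  rw [Measure.map_apply hπ hA, withDensity_apply _ (hπ hA)]
  calc ∫⁻ y in T.starProjection ⁻¹' A, ENNReal.ofReal (jac (proj T) (P y)) ∂ν
      ≤ ∫⁻ y in T.starProjection ⁻¹' A, 1 ∂ν := by
        refine lintegral_mono_ae (ae_restrict_of_ae ?_)
        filter_upwards [hI.J_le] with y hy
        calc ENNReal.ofReal (jac (proj T) (P y)) ≤ ENNReal.ofReal 1 := ENNReal.ofReal_le_ofReal hy
          _ = 1 := ENNReal.ofReal_one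
    _ = _ := by rw [setLIntegral_one]

lemma isFinite_sg : IsFiniteMeasure (sg T ν P) := by
  haveI := hI.stat.fin
  refine ⟨(sg_le hI MeasurableSet.univ).trans_lt ?_⟩
  exact measure_lt_top _ _

/-- integral against the pushed forward projected area -/
lemma integral_sg {f : E → ℝ} (hf : Measurable f) :
    ∫ x, f x ∂(sg T ν P) = ∫ y, jac (proj T) (P y) * f (T.starProjection y) ∂ν := by
  have hπ : Measurable (T.starProjection : E → E) := T.starProjection.continuous.measurable
  unfold sg
  rw [integral_map hπ.aemeasurable hf.aestronglyMeasurable,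
    integral_withDensity_eq_integral_toReal_smul₀ hI.measJ.ennreal_ofReal
      (Eventually.of_forall fun y => ENNReal.ofReal_lt_top)]
  refine integral_congr_ae ?_
  filter_upwards [hI.J_nonneg] with y hy
  rw [ENNReal.toReal_ofReal hy, smul_eq_mul]

/-- on the set where there are `Q` sheets the pushed forward projected area is `Q H^m` -/
lemma sg_restrict {Q : ℕ} {X : Set E} (hX : MeasurableSet X)
    (hN : ∀ᵐ x ∂(μH[m].restrict (T : Set E)), x ∈ X → INT.sheets T S θ univ x = Q) :
    (sg T ν P).restrict X = (Q : ℝ≥0∞) • ((μH[m].restrict (T : Set E)).restrict X) := by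
  refine Measure.ext fun A hA => ?_
  rw [Measure.restrict_apply hA, sg_apply hI (hA.inter hX), Measure.smul_apply, smul_eq_mul,
    Measure.restrict_apply hA]
  have h1 : ∫⁻ x in (T : Set E), (A ∩ X).indicator 1 x * INT.sheets T S θ univ x ∂μH[m]
      = ∫⁻ x in (T : Set E), (Q : ℝ≥0∞) * (A ∩ X).indicator 1 x ∂μH[m] := by
    refine lintegral_congr_ae ?_
    filter_upwards [hN] with x hx
    by_cases h2 : x ∈ A ∩ X
    · rw [hx h2.2, mul_comm]
    · simp [indicator_of_notMem h2]
  rw [h1, lintegral_const_mul _ (measurable_one.indicator (hA.inter hX)),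
    lintegral_indicator_one (hA.inter hX)]

omit hI in
lemma two_sqrt (m : ℕ) : (2:ℝ) * √m = √(4 * m) := by
  rw [Real.sqrt_mul (by norm_num), show (4:ℝ) = 2 ^ 2 by norm_num, Real.sqrt_sq (by norm_num)]

/-- pointwise bounds -/
lemma ae_pt {B : Set E} (hw : WRef T w B) :
    ∀ᵐ y ∂ν, T.starProjection y ∈ B → |jac (proj T) (P y) * ar (fderiv ℝ w y) - 1|
      ≤ jaC m * √(ew T (fderiv ℝ w y) (P y)) ∧ √(ew T (fderiv ℝ w y) (P y)) ≤ 2 * √m := by
  filter_upwards [hI.stat.proj] with y hy hyB
  obtain ⟨L, hL, hPL⟩ := hy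
  have h1 := jac_area hL hI.stat.dimT (hw.slope y) (hw.le y hyB)
  have h2 : √(ew T (fderiv ℝ w y) L.starProjection) ≤ 2 * √m := by
    rw [two_sqrt]
    exact Real.sqrt_le_sqrt (ew_le' hL (hw.le y hyB))
  rw [hPL]
  exact ⟨h1, h2⟩

/-- integrability of the square root of the energy density -/
lemma integrable_ew {B : Set E} (hw : WRef T w B) (hB : MeasurableSet B) :
    IntegrableOn (fun y => √(ew T (fderiv ℝ w y) (P y))) (T.starProjection ⁻¹' B) ν := by
  haveI := hI.stat.fin
  have hπ : Measurable (T.starProjection : E → E) := T.starProjection.continuous.measurable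
  have hew : AEStronglyMeasurable (fun y => √(ew T (fderiv ℝ w y) (P y))) ν :=
    aesm_sqrt_ew hw.cont hI.stat.meas
  refine Integrable.mono' (integrable_const (2 * √m)) hew.restrict ?_
  rw [ae_restrict_iff' (hπ hB)]
  filter_upwards [ae_pt hI hw] with y hy hyB
  rw [Real.norm_eq_abs, abs_of_nonneg (Real.sqrt_nonneg _)]
  exact (hy hyB).2

/-- the function `ψ ar` -/
lemma psi_ar_bound {B : Set E} (hw : WRef T w B) {ψ : E → ℝ} {M : ℝ} (hM : ∀ x, |ψ x| ≤ M)
    (hψ0 : ∀ x, x ∉ B → ψ x = 0) (y : E) :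
    |ψ (T.starProjection y) * ar (fderiv ℝ w (T.starProjection y))| ≤ arC m * M := by
  have hM0 : 0 ≤ M := (abs_nonneg _).trans (hM 0)
  have harc := arC_pos m
  set x := T.starProjection y with hx
  by_cases hxB : x ∈ B
  · have h1 : T.starProjection x = x := by rw [hx, star_self]
    have h2 : ar (fderiv ℝ w x) ≤ arC m :=
      ar_le hI.stat.dimT (hw.slope x) (hw.le x (by rw [h1]; exact hxB))
    rw [abs_mul, abs_of_nonneg (ar_nonneg _), mul_comm]
    exact mul_le_mul h2 (hM x) (abs_nonneg _) harc.le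
  · rw [hψ0 x hxB, zero_mul, abs_zero]; positivity

/-- the part `1 - J ar` -/
lemma part_one {B : Set E} (hw : WRef T w B) (hB : MeasurableSet B)
    {ψ : E → ℝ} (hψ : Measurable ψ) {M : ℝ} (hM : ∀ x, |ψ x| ≤ M) (hψ0 : ∀ x, x ∉ B → ψ x = 0) :
    |∫ y, ψ (T.starProjection y) ∂ν - ∫ x, ψ x * ar (fderiv ℝ w x) ∂(sg T ν P)|
      ≤ M * (jaC m * ∫ y in T.starProjection ⁻¹' B, √(ew T (fderiv ℝ w y) (P y)) ∂ν) := by
  haveI := hI.stat.fin
  have hπ : Measurable (T.starProjection : E → E) := T.starProjection.continuous.measurable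
  have hM0 : 0 ≤ M := (abs_nonneg _).trans (hM 0)
  have harm : Measurable fun x => ar (fderiv ℝ w x) := (continuous_ar.comp hw.cont).measurable
  have hfm : Measurable fun x => ψ x * ar (fderiv ℝ w x) := hψ.mul harm
  have hJm : AEStronglyMeasurable (fun y => jac (proj T) (P y)) ν := hI.measJ.aestronglyMeasurable
  have hψi : Integrable (fun y => ψ (T.starProjection y)) ν :=
    Integrable.mono' (integrable_const M) (hψ.comp hπ).aestronglyMeasurable
      (Eventually.of_forall fun y => hM _)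
  have hfi : Integrable (fun y => jac (proj T) (P y) *
      (ψ (T.starProjection y) * ar (fderiv ℝ w (T.starProjection y)))) ν := by
    refine Integrable.mono' (integrable_const (arC m * M))
      (hJm.mul (hfm.comp hπ).aestronglyMeasurable) ?_
    filter_upwards [hI.J_nonneg, hI.J_le] with y h1 h2
    rw [Real.norm_eq_abs, abs_mul, abs_of_nonneg h1]
    calc jac (proj T) (P y) * |ψ (T.starProjection y) * ar (fderiv ℝ w (T.starProjection y))|
        ≤ 1 * (arC m * M) :=
          mul_le_mul h2 (psi_ar_bound hI hw hM hψ0 y) (abs_nonneg _) zero_le_one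
      _ = _ := one_mul _
  rw [integral_sg hI hfm, ← integral_sub hψi hfi]
  have h1 : ∫ y, (ψ (T.starProjection y) - jac (proj T) (P y) *
      (ψ (T.starProjection y) * ar (fderiv ℝ w (T.starProjection y)))) ∂ν
      = ∫ y in T.starProjection ⁻¹' B, (ψ (T.starProjection y)
        - jac (proj T) (P y) * (ψ (T.starProjection y)
          * ar (fderiv ℝ w (T.starProjection y)))) ∂ν := by
    symm
    refine setIntegral_eq_integral_of_forall_compl_eq_zero fun y hy => ?_
    have hy' : T.starProjection y ∉ B := hy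
    rw [hψ0 _ hy']; ring
  rw [h1, ← Real.norm_eq_abs, ← mul_assoc, ← integral_const_mul]
  refine norm_integral_le_of_norm_le ((integrable_ew hI hw hB).const_mul _) ?_
  rw [ae_restrict_iff' (hπ hB)]
  filter_upwards [ae_pt hI hw] with y hy hyB
  have h2 := (hy hyB).1
  have h3 : ψ (T.starProjection y) - jac (proj T) (P y) *
      (ψ (T.starProjection y) * ar (fderiv ℝ w (T.starProjection y)))
      = -(ψ (T.starProjection y) * (jac (proj T) (P y) * ar (fderiv ℝ w y) - 1)) := by
    rw [hw.base]; ring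
  rw [h3, norm_neg, Real.norm_eq_abs, abs_mul, mul_assoc]
  exact mul_le_mul (hM _) h2 (abs_nonneg _) hM0

/-- the multiplicity part -/
lemma part_two {Q : ℕ} {B X : Set E} (hB : MeasurableSet B) (hX : MeasurableSet X)
    (hBf : (μH[m].restrict (T : Set E)) B ≠ ⊤)
    (hN : ∀ᵐ x ∂(μH[m].restrict (T : Set E)), x ∈ B → x ∈ X → INT.sheets T S θ univ x = Q)
    {b : ℝ} (hb1 : (μH[m].restrict (T : Set E)).real (B \ X) ≤ b)
    (hb2 : ν.real (T.starProjection ⁻¹' (B \ X)) ≤ b)
    {f : E → ℝ} (hfm : Measurable f) {K : ℝ} (hK : ∀ y, |f (T.starProjection y)| ≤ K)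
    (hf0 : ∀ x, x ∉ B → f x = 0) :
    |∫ x, f x ∂(sg T ν P) - Q * ∫ x in (T : Set E), f x ∂μH[m]| ≤ K * ((Q + 1) * b) := by
  haveI := hI.stat.fin
  haveI := isFinite_sg hI
  have hπ : Measurable (T.starProjection : E → E) := T.starProjection.continuous.measurable
  have hK0 : 0 ≤ K := (abs_nonneg _).trans (hK 0)
  have hBX : MeasurableSet (B ∩ X) := hB.inter hX
  have hBX' : MeasurableSet (B \ X) := hB.diff hX
  have haesg : ∀ᵐ x ∂(sg T ν P), ‖f x‖ ≤ K := by
    unfold sg
    rw [ae_map_iff hπ.aemeasurable (measurableSet_le hfm.norm measurable_const)]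
    refine Eventually.of_forall fun y => ?_
    rw [Real.norm_eq_abs]
    exact hK y
  have hfib : Integrable f (sg T ν P) :=
    Integrable.mono' (integrable_const K) hfm.aestronglyMeasurable haesg
  haveI hfinB : IsFiniteMeasure ((μH[m].restrict (T : Set E)).restrict B) := ⟨by
    rw [Measure.restrict_apply_univ]; exact lt_top_iff_ne_top.2 hBf⟩
  have hTae : ∀ᵐ x ∂(μH[m].restrict (T : Set E)), ‖f x‖ ≤ K := by
    filter_upwards [ae_restrict_mem T.closed_of_finiteDimensional.measurableSet] with x hx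
    have h1 : T.starProjection x = x := Submodule.starProjection_eq_self_iff.2 hx
    rw [Real.norm_eq_abs, ← h1]
    exact hK x
  have hfiT : IntegrableOn f B (μH[m].restrict (T : Set E)) :=
    Integrable.mono' (integrable_const K) hfm.aestronglyMeasurable (ae_restrict_of_ae hTae)
  have hsplit1 : ∫ x, f x ∂(sg T ν P)
      = ∫ x in B ∩ X, f x ∂(sg T ν P) + ∫ x in B \ X, f x ∂(sg T ν P) := by
    have h1 : ∫ x, f x ∂(sg T ν P) = ∫ x in B, f x ∂(sg T ν P) :=
      (setIntegral_eq_integral_of_forall_compl_eq_zero fun x hx => hf0 x hx).symm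
    rw [h1, integral_inter_add_sdiff hX hfib.integrableOn]
  have hsplit2 : ∫ x in (T : Set E), f x ∂μH[m]
      = ∫ x in B ∩ X, f x ∂(μH[m].restrict (T : Set E))
        + ∫ x in B \ X, f x ∂(μH[m].restrict (T : Set E)) := by
    have h1 : ∫ x in (T : Set E), f x ∂μH[m] = ∫ x in B, f x ∂(μH[m].restrict (T : Set E)) :=
      (setIntegral_eq_integral_of_forall_compl_eq_zero fun x hx => hf0 x hx).symm
    rw [h1, integral_inter_add_sdiff hX hfiT]
  have hmain : ∫ x in B ∩ X, f x ∂(sg T ν P)
      = Q * ∫ x in B ∩ X, f x ∂(μH[m].restrict (T : Set E)) := by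
    rw [sg_restrict hI (Q := Q) hBX (by
      filter_upwards [hN] with x hx hxB using hx hxB.1 hxB.2), integral_smul_measure]
    simp
  have hlast1 : |∫ x in B \ X, f x ∂(sg T ν P)| ≤ K * b := by
    have h1 : ‖∫ x in B \ X, f x ∂(sg T ν P)‖ ≤ K * (sg T ν P).real (B \ X) :=
      norm_setIntegral_le_of_norm_le_const_ae (measure_lt_top _ _) (ae_restrict_of_ae haesg)
    rw [Real.norm_eq_abs] at h1
    refine h1.trans ?_
    have h2 : (sg T ν P).real (B \ X) ≤ b := by
      refine le_trans ?_ hb2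
      exact ENNReal.toReal_mono (measure_ne_top _ _) (sg_le hI hBX')
    gcongr
  have hlast2 : |∫ x in B \ X, f x ∂(μH[m].restrict (T : Set E))| ≤ K * b := by
    have hlt : (μH[m].restrict (T : Set E)) (B \ X) < ⊤ :=
      (measure_mono diff_subset).trans_lt (lt_top_iff_ne_top.2 hBf)
    have h1 : ‖∫ x in B \ X, f x ∂(μH[m].restrict (T : Set E))‖
        ≤ K * (μH[m].restrict (T : Set E)).real (B \ X) :=
      norm_setIntegral_le_of_norm_le_const_ae hlt (ae_restrict_of_ae hTae)
    rw [Real.norm_eq_abs] at h1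
    refine h1.trans ?_
    gcongr
  rw [hsplit1, hsplit2, hmain]
  set a1 := ∫ x in B ∩ X, f x ∂(μH[m].restrict (T : Set E))
  set a2 := ∫ x in B \ X, f x ∂(μH[m].restrict (T : Set E))
  set a3 := ∫ x in B \ X, f x ∂(sg T ν P)
  have e1 : (Q : ℝ) * a1 + a3 - Q * (a1 + a2) = a3 - Q * a2 := by ring
  rw [e1]
  calc |a3 - Q * a2| ≤ |a3| + |Q * a2| := abs_sub _ _
    _ ≤ K * b + Q * (K * b) := by
        rw [abs_mul, Nat.abs_cast]
        gcongr
    _ = _ := by ring

/-- **(INT-W), abstract form.** -/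
theorem intW_abs {Q : ℕ} {B X : Set E} (hw : WRef T w B) (hB : MeasurableSet B)
    (hX : MeasurableSet X)
    (hBf : (μH[m].restrict (T : Set E)) B ≠ ⊤)
    (hN : ∀ᵐ x ∂(μH[m].restrict (T : Set E)), x ∈ B → x ∈ X → INT.sheets T S θ univ x = Q)
    {b : ℝ} (hb1 : (μH[m].restrict (T : Set E)).real (B \ X) ≤ b)
    (hb2 : ν.real (T.starProjection ⁻¹' (B \ X)) ≤ b)
    {ψ : E → ℝ} (hψ : Measurable ψ) {M : ℝ} (hM : ∀ x, |ψ x| ≤ M) (hψ0 : ∀ x, x ∉ B → ψ x = 0) :
    |∫ y, ψ (T.starProjection y) ∂ν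
        - Q * ∫ x in (T : Set E), ψ x * ar (fderiv ℝ w x) ∂μH[m]|
      ≤ arC m * M * (jaC m * ∫ y in T.starProjection ⁻¹' B, √(ew T (fderiv ℝ w y) (P y)) ∂ν
        + (Q + 1) * b) := by
  have hM0 : 0 ≤ M := (abs_nonneg _).trans (hM 0)
  have harc := one_le_arC m
  have hjac := jaC_nonneg m
  have harm : Measurable fun x => ar (fderiv ℝ w x) := (continuous_ar.comp hw.cont).measurable
  have hfm : Measurable fun x => ψ x * ar (fderiv ℝ w x) := hψ.mul harm
  have hA := part_one hI hw hB hψ hM hψ0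
  have hBn := part_two hI (Q := Q) hB hX hBf hN hb1 hb2 hfm (K := arC m * M)
    (fun y => psi_ar_bound hI hw hM hψ0 y) (fun x hx => by rw [hψ0 x hx, zero_mul])
  set I1 := ∫ y, ψ (T.starProjection y) ∂ν
  set I2 := ∫ x, ψ x * ar (fderiv ℝ w x) ∂(sg T ν P)
  set I3 := ∫ x in (T : Set E), ψ x * ar (fderiv ℝ w x) ∂μH[m]
  set I4 := ∫ y in T.starProjection ⁻¹' B, √(ew T (fderiv ℝ w y) (P y)) ∂ν with hI4
  have h1 : 0 ≤ I4 := by rw [hI4]; exact integral_nonneg fun y => Real.sqrt_nonneg _
  calc |I1 - Q * I3| ≤ |I1 - I2| + |I2 - Q * I3| := by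
        have := abs_add_le (I1 - I2) (I2 - Q * I3)
        rwa [sub_add_sub_cancel] at this
    _ ≤ M * (jaC m * I4) + arC m * M * ((Q + 1) * b) := add_le_add hA hBn
    _ ≤ arC m * M * (jaC m * I4) + arC m * M * ((Q + 1) * b) := by
        have h2 : M ≤ arC m * M := by nlinarith
        gcongr
    _ = _ := by ring

end

end Vale.Agent.P214.INTW
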