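import Vale.Agent.P214.INTW.Win
import Vale.Agent.P214.INTW.Chain2
import Vale.Agent.P214.INTW.Grid
import Vale.Agent.P214.R2.WinSk
import Vale.Agent.P214.COORD.Win

/-!
# P214, block INT-W: `WIN.IntWStmt`
-/

open MeasureTheory Set Filter Topology Metric
open scoped ENNReal NNReal RealInnerProductSpace ContDiff

set_option linter.all false

namespace Vale.Agent.P214.INTW

open Vale.Agent.P214 Vale.Agent.P214.FV Vale.Agent.P214.AREA Vale.Agent.P214.KMS

variable {E : Type*} [NormedAddCommGroup E] [InnerProductSpace ℝ E] [FiniteDimensional ℝ E]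
  [MeasurableSpace E] [BorelSpace E] {m n Q : ℕ} {T : Submodule ℝ E} {h : ℝ} {z : E} {R δ : ℝ}
  {ν : Measure E} {P : E → E →L[ℝ] E}

lemma cylSet_sub {r r' : ℝ} (h : r ≤ r') : Skel.cylSet T z r ⊆ Skel.cylSet T z r' :=
  fun _ hy => ball_subset_ball h hy

lemma meas_cylSet (T : Submodule ℝ E) (z : E) (R : ℝ) : MeasurableSet (Skel.cylSet T z R) :=
  (isOpen_ball.preimage T.starProjection.continuous).measurableSet

/-- mass fraction at the centre, all `m` -/
lemma near0 (hI : Skel.IntCyl m Q T z R h δ ν P) {s : ℝ} (hs : 0 < s) (hsR : s ≤ R) :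
    |INT.htot m T ν z s / cg m - Q| ≤ (36 * R / s ^ (m + 1) * Skel.exc T ν P z R + δ) / cg m := by
  have hcg := cg_pos m
  rcases Nat.eq_zero_or_pos m with hm | hm
  · subst hm
    have hR := hI.pos
    have hfr : Module.finrank ℝ T = 0 := hI.cyl.dimT
    have hT : T = ⊥ := Submodule.finrank_eq_zero.1 hfr
    have hz : z = 0 := by
      have := hI.mem; rw [hT] at this; simpa using this
    have hπ : ∀ y, T.starProjection y = 0 := fun y => by
      have := T.starProjection_apply_mem y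
      rw [hT] at this ⊢
      simpa using this
    have hcyl : Skel.cylSet T z R = univ := by
      refine eq_univ_of_forall fun y => ?_
      show T.starProjection y ∈ ball z R
      rw [hπ, hz]; exact mem_ball_self hR
    have hcut : ∀ y, cut (T.starProjection z) s (T.starProjection y) = 1 := by
      intro y
      unfold cut prof
      rw [hπ, hπ]; simp
    have h1 : INT.htot 0 T ν z s = ν.real univ := by
      unfold INT.htot
      simp only [hcut]
      simp
    have h2 : cg 0 = Skel.om 0 := by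
      rw [R2.cg_eq_cm]; unfold TCH.cm; norm_num
    have h3 := hI.mass
    rw [hcyl] at h3
    simp only [pow_zero, mul_one] at h3
    rw [h1]
    have h4 : ν.real univ / cg 0 - Q = (ν.real univ - Q * Skel.om 0) / cg 0 := by
      rw [sub_div, h2, mul_div_assoc, div_self (by rw [← h2]; exact hcg.ne'), mul_one]
    rw [h4, abs_div, abs_of_pos hcg]
    have h5 := R2.exc_nonneg hI.cyl z R
    have h6 : 0 ≤ 36 * R / s ^ (0 + 1) * Skel.exc T ν P z R := by positivity
    gcongr
    linarith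
  · exact R2.near_of_skel hI hm hI.mem hs (by rw [sub_self, norm_zero, zero_add]; exact hsR)

/-- the derivative of an admissible reference -/
lemma Refe_fderiv {F : WIN.Frame m n T} {u : Fin n → REF.E m → ℝ} {ε r : ℝ}
    (hu : WIN.Refe ε r u) (y : E) : ‖fderiv ℝ (F.lift u) y‖ ≤ n * ε := by
  have h1 := COORD.norm_iteratedFDeriv_lift F (j := 1) (u := u)
    (fun a => (hu.smooth a).of_le (by exact_mod_cast le_top)) y
  rw [norm_iteratedFDeriv_one] at h1
  refine h1.trans ?_
  calc _ ≤ ∑ a : Fin n, ε := Finset.sum_le_sum fun a _ =>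
        hu.small a 1 (by unfold WIN.sW; omega) _
    _ = n * ε := by simp

/-- the planar side in coordinates -/
lemma integral_coord (F : WIN.Frame m n T) {u : Fin n → REF.E m → ℝ} {ε r : ℝ}
    (hu : WIN.Refe ε r u) (ψ : REF.E m → ℝ) :
    ∫ x in (T : Set E), ψ (F.xc x) * FM.areaEl (F.lift u) x ∂μH[m]
      = ∫ x, ψ x * √(REF.gm u x).det ∂μH[m] := by
  rw [COORD.setIntegral_up F, COORD.hausdorff_eq, integral_smul_nnreal_measure]
  have h1 : ∀ x, ψ (F.xc (F.up x)) * FM.areaEl (F.lift u) (F.up x)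
      = ψ x * √(REF.gm u x).det := by
    intro x
    rw [COORD.areaEl_lift F (fun a => (hu.smooth a).of_le two_le_inf), xc_up]
  simp only [h1]
  rfl

/-- the trivial bound -/
lemma trivial_bound (F : WIN.Frame m n T) (hT : Module.finrank ℝ T = m) {w : E → E}
    (hw : KMS.Ref T w) (hw1 : ∀ y, ‖fderiv ℝ w y‖ ≤ 1) {ν : Measure E} [IsFiniteMeasure ν]
    {V : ℝ} (hV : ν.real univ ≤ V) {ψ : E → ℝ} (hψ : Measurable ψ) {M R : ℝ} (hR1 : R ≤ 1)
    (hM : ∀ x ∈ T, |ψ x| ≤ M) (hψ0 : ∀ x ∈ T, R ≤ ‖x‖ → ψ x = 0) :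
    |∫ y, ψ (T.starProjection y) ∂ν - Q * ∫ x in (T : Set E), ψ x * ar (fderiv ℝ w x) ∂μH[m]|
      ≤ M * (V + Q * (arC m * (2 * cg m * 2 ^ m))) := by
  have hM0 : 0 ≤ M := (abs_nonneg _).trans (hM 0 T.zero_mem)
  have hTm : MeasurableSet (T : Set E) := T.closed_of_finiteDimensional.measurableSet
  have harc := arC_pos m
  have hcg := cg_pos m
  have h1 : |∫ y, ψ (T.starProjection y) ∂ν| ≤ M * V := by
    rw [← Real.norm_eq_abs]
    refine (norm_integral_le_of_norm_le_const (C := M) (Eventually.of_forall fun y => ?_)).trans ?_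
    · rw [Real.norm_eq_abs]; exact hM _ (Submodule.starProjection_apply_mem _ _)
    · gcongr
  have h2 : |∫ x in (T : Set E), ψ x * ar (fderiv ℝ w x) ∂μH[m]|
      ≤ (arC m * M) * (2 * cg m * 2 ^ m) := by
    have e1 : ∫ x in (T : Set E), ψ x * ar (fderiv ℝ w x) ∂μH[m]
        = ∫ x in closedBall (0:E) 1, ψ x * ar (fderiv ℝ w x) ∂(μH[m].restrict (T : Set E)) := by
      rw [← integral_indicator isClosed_closedBall.measurableSet]
      refine setIntegral_congr_fun hTm fun x hx => ?_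
      beta_reduce
      by_cases hx1 : x ∈ closedBall (0:E) 1
      · rw [indicator_of_mem hx1]
      · rw [indicator_of_notMem hx1]
        rw [mem_closedBall, dist_zero_right, not_le] at hx1
        rw [hψ0 x hx (hR1.trans hx1.le), zero_mul]
    rw [e1, ← Real.norm_eq_abs]
    refine (norm_setIntegral_le_of_norm_le_const_ae (lam_closedBall_lt_top hT 1)
      (C := arC m * M) (ae_restrict_of_ae ?_)).trans ?_
    · filter_upwards [ae_restrict_mem hTm] with x hx
      rw [norm_mul, Real.norm_eq_abs, Real.norm_eq_abs, abs_of_nonneg (ar_nonneg _), mul_comm]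
      exact mul_le_mul (ar_le hT (hw.slope x) (hw1 x)) (hM x hx) (abs_nonneg _) harc.le
    · have h3 : (μH[m].restrict (T : Set E)).real (closedBall 0 1) ≤ 2 * cg m * 2 ^ m := by
        have h4 := INTM.lam_closedBall_le (E := E) hT T.zero_mem one_pos
        rw [mul_one] at h4
        exact ENNReal.toReal_le_of_le_ofReal (by positivity) h4
      gcongr
  have hQ : (0:ℝ) ≤ Q := by positivity
  calc |∫ y, ψ (T.starProjection y) ∂ν - Q * ∫ x in (T : Set E), ψ x * ar (fderiv ℝ w x) ∂μH[m]|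
      ≤ |∫ y, ψ (T.starProjection y) ∂ν|
        + |Q * ∫ x in (T : Set E), ψ x * ar (fderiv ℝ w x) ∂μH[m]| := abs_sub _ _
    _ ≤ M * V + Q * ((arC m * M) * (2 * cg m * 2 ^ m)) := by
        rw [abs_mul, abs_of_nonneg hQ]
        gcongr
    _ = _ := by ring

section core

variable {S : Set E} {th : E → ℕ} {w : E → E} {G : Set E} {r : ℝ}

/-- the chain hypotheses for the relative energy -/
lemma chn_of (hint : INT.IntCyl m T G h ν P S th (fun y => jac (proj T) (P y)))
    (hw : KMS.Ref T w) {c : ℝ} (hc1 : c ≤ 1) (hc0 : 0 ≤ c)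
    (hDw : ∀ y, ‖fderiv ℝ w y‖ ≤ c) (hr : 0 < r) (hrG : ball 0 r ⊆ G) :
    Chn m T G h ν P S th (fun y => jac (proj T) (P y)) 0 r (4 * m * c ^ 2)
      (fun y => 4 * eg T w P y) where
  int := hint
  mem := T.zero_mem
  pos := hr
  sub := hrG
  nonneg := fun y => mul_nonneg (by norm_num) (eg_nonneg T w P y)
  intg := (integrableOn_eg hint.stat hw INTM.isOpen_cyl.measurableSet
    fun y _ => (hDw y).trans hc1).const_mul 4
  kap := by positivity
  le := by
    filter_upwards [tilt_le_eg hint.stat hw] with y hy _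
    refine hy.trans ?_
    have := hDw y
    gcongr

/-- sum over the cubes -/
lemma sum_cubes {C₁ δ c : ℝ}
    (HW : ∀ (z : E) (r : ℝ), INT.Win m Q δ T G h ν P S th (fun y => jac (proj T) (P y)) z r →
      ∀ (ψ : E → ℝ) (M : ℝ), Measurable ψ → (∀ x ∈ T, |ψ x| ≤ M) →
      (∀ x ∈ T, x ∉ ball z r → ψ x = 0) →
      |∫ y, ψ (T.starProjection y) ∂ν - Q * ∫ x in (T : Set E), ψ x * ar (fderiv ℝ w x) ∂μH[m]|
        ≤ C₁ * M * ∫ y in INT.cyl T z (2 * r), (eg T w P y + √(eg T w P y)) ∂ν)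
    (hC₁ : 0 ≤ C₁) (hC : CylStat m T G h ν P) (hw : KMS.Ref T w)
    (hDw : ∀ y, ‖fderiv ℝ w y‖ ≤ 1)
    (F : WIN.Frame m n T) {ρ θ : ℝ} (hρ : 0 < ρ) (hρθ : 33 * ρ ≤ θ) (hθr : θ ≤ r)
    (HC : ∀ x ∈ T, ‖x - 0‖ + 32 * ρ ≤ r →
      INT.Win m Q δ T G h ν P S th (fun y => jac (proj T) (P y)) x ρ)
    {ψ : E → ℝ} (hψ : Measurable ψ) {M : ℝ} (hM : ∀ x ∈ T, |ψ x| ≤ M)
    (hψ0 : ∀ x ∈ T, r - θ ≤ ‖x‖ → ψ x = 0) :
    |∫ y, ψ (T.starProjection y) ∂ν - Q * ∫ x in (T : Set E), ψ x * ar (fderiv ℝ w x) ∂μH[m]|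
      ≤ (2 * ((r - θ) / (ρ / (m + 1))) + 3) ^ m *
        (C₁ * M * ∫ y in INT.cyl T 0 r, (eg T w P y + √(eg T w P y)) ∂ν) := by
  haveI := hC.fin
  have hM0 : 0 ≤ M := (abs_nonneg _).trans (hM 0 T.zero_mem)
  have hh : 0 < ρ / ((m:ℝ) + 1) := by positivity
  have hmh : ((m:ℝ) + 1) * (ρ / (m + 1)) = ρ := by field_simp
  have hα : Continuous fun x => ar (fderiv ℝ w x) :=
    continuous_ar.comp (hw.smooth.continuous_fderiv (by simp))
  have hei : IntegrableOn (fun y => eg T w P y + √(eg T w P y)) (INT.cyl T 0 r) ν :=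
    (integrableOn_eg hC hw INTM.isOpen_cyl.measurableSet fun y _ => hDw y).add
      (integrableOn_sqrt_eg hC hw INTM.isOpen_cyl.measurableSet fun y _ => hDw y)
  have hnn : ∀ y, 0 ≤ eg T w P y + √(eg T w P y) := fun y =>
    add_nonneg (eg_nonneg T w P y) (Real.sqrt_nonneg _)
  set J := ∫ y in INT.cyl T 0 r, (eg T w P y + √(eg T w P y)) ∂ν with hJ
  have hJ0 : 0 ≤ J := integral_nonneg hnn
  refine grid_le F hC.dimT hh (by linarith) hα hψ hM hψ0 Q fun k => ?_
  by_cases hk : ∃ x ∈ T, ‖x‖ < r - θ ∧ kf F (ρ / (m + 1)) x = k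
  · obtain ⟨x, hx, hxr, rfl⟩ := hk
    have h1 := dist_cor F hh hx
    rw [hmh] at h1
    set q := cor F (ρ / (m + 1)) (kf F (ρ / (m + 1)) x) with hq
    have hqT : q ∈ T := cor_mem F _ _
    have h2 : ‖q‖ ≤ ‖x‖ + ρ := by
      have h3 : ‖q‖ ≤ ‖x‖ + ‖x - q‖ := by
        have := norm_sub_le x (x - q)
        rwa [sub_sub_cancel] at this
      linarith
    have h3 := HW q ρ (HC q hqT (by rw [sub_zero]; linarith))
      (cub F (ρ / (m + 1)) (kf F (ρ / (m + 1)) x) ψ) M (measurable_cub F _ _ hψ)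
      (fun x' hx' => (abs_cub_le F _ _ ψ x').trans (hM x' hx')) (fun x' hx' hx'' => by
        unfold cub
        refine indicator_of_notMem (fun h4 => hx'' ?_) _
        have h5 : kf F (ρ / (m + 1)) x' = kf F (ρ / (m + 1)) x := h4
        have h6 := dist_cor F hh hx'
        rw [hmh, h5] at h6
        rw [mem_ball, dist_eq_norm]
        exact h6)
    refine h3.trans ?_
    have h7 : ∫ y in INT.cyl T q (2 * ρ), (eg T w P y + √(eg T w P y)) ∂ν ≤ J := by
      refine setIntegral_mono_set hei (Eventually.of_forall hnn) (HasSubset.Subset.eventuallyLE ?_)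
      refine INTM.cyl_subset ?_
      rw [dist_eq_norm, Submodule.starProjection_eq_self_iff.2 hqT,
        map_zero, sub_zero]
      linarith
    gcongr
  · have h1 : ∀ x ∈ T, cub F (ρ / (m + 1)) k ψ x = 0 := by
      intro x hx
      unfold cub
      by_cases h2 : x ∈ kf F (ρ / (m + 1)) ⁻¹' {k}
      · rw [indicator_of_mem h2]
        refine hψ0 x hx ?_
        by_contra h3
        exact hk ⟨x, hx, not_le.1 h3, h2⟩
      · rw [indicator_of_notMem h2]
    have e1 : ∫ y, cub F (ρ / (m + 1)) k ψ (T.starProjection y) ∂ν = 0 := by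
      rw [integral_eq_zero_of_ae]
      exact Eventually.of_forall fun y => h1 _ (Submodule.starProjection_apply_mem _ _)
    have e2 : ∫ x in (T : Set E), cub F (ρ / (m + 1)) k ψ x * ar (fderiv ℝ w x) ∂μH[m] = 0 := by
      rw [integral_eq_zero_of_ae]
      filter_upwards [ae_restrict_mem T.closed_of_finiteDimensional.measurableSet] with x hx
      rw [h1 x hx, zero_mul]; rfl
    rw [e1, e2, mul_zero, sub_zero, abs_zero]
    positivity

end core

end Vale.Agent.P214.INTW
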