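import Vale.Agent.P214.INTW.Main
import Vale.Agent.P214.INT.MMain
import Vale.Agent.P214.KMS.Sheet
import Vale.Agent.P214.FM.Cyl

/-!
# P214, block INT-W: one window
-/

open MeasureTheory Set Filter Topology Metric
open scoped ENNReal NNReal RealInnerProductSpace ContDiff

set_option linter.all false

namespace Vale.Agent.P214.INTW

open Vale.Agent.P214 Vale.Agent.P214.FV Vale.Agent.P214.AREA Vale.Agent.P214.KMS

variable {E : Type*} [NormedAddCommGroup E] [InnerProductSpace ℝ E] [FiniteDimensional ℝ E]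
  [MeasurableSpace E] [BorelSpace E] {m : ℕ} {T : Submodule ℝ E} {G : Set E} {h : ℝ}
  {ν : Measure E} {P : E → E →L[ℝ] E} {S : Set E} {θ : E → ℕ} {w : E → E}

lemma wref_of (hw : KMS.Ref T w) {B : Set E}
    (hB : ∀ y, T.starProjection y ∈ B → ‖fderiv ℝ w y‖ ≤ 1) : WRef T w B where
  cont := hw.smooth.continuous_fderiv (by simp)
  slope := hw.slope
  base := fun y => (base_fderiv' hw.diff hw.base y).symm
  le := hB

/-- the relative energy density -/
noncomputable def eg (T : Submodule ℝ E) (w : E → E) (P : E → E →L[ℝ] E) (y : E) : ℝ :=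
  ew T (fderiv ℝ w y) (P y)

lemma eg_nonneg (T : Submodule ℝ E) (w : E → E) (P : E → E →L[ℝ] E) (y : E) :
    0 ≤ eg T w P y := ew_nonneg _ _ _

lemma eg_eq_ae (hC : CylStat m T G h ν P) (hw : KMS.Ref T w) :
    ∀ᵐ y ∂ν, eg T w P y = gsq (rel T w) (P y) y := by
  filter_upwards [hC.proj] with y hy
  obtain ⟨L, hL, hPL⟩ := hy
  unfold eg
  rw [hPL, hw.gsq_eq_ew]

lemma aesm_eg (hC : CylStat m T G h ν P) (hw : KMS.Ref T w) :
    AEStronglyMeasurable (eg T w P) ν := by
  have hcont : Continuous (fderiv ℝ w) := hw.smooth.continuous_fderiv (by simp)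
  have h0 : AEStronglyMeasurable (fderiv ℝ w) ν := hcont.aestronglyMeasurable
  have h1 : AEStronglyMeasurable (fun y => (fderiv ℝ w y, P y)) ν := h0.prodMk hC.meas
  have h2 : Continuous fun p : (E →L[ℝ] E) × (E →L[ℝ] E) => ew T p.1 p.2 := continuous_ew T
  have h3 := h2.comp_aestronglyMeasurable h1
  exact h3

lemma eg_le_ae (hC : CylStat m T G h ν P) :
    ∀ᵐ y ∂ν, ‖fderiv ℝ w y‖ ≤ 1 → eg T w P y ≤ 4 * m := by
  filter_upwards [hC.proj] with y hy h1
  obtain ⟨L, hL, hPL⟩ := hy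
  unfold eg
  rw [hPL]
  exact ew_le' hL h1

lemma integrableOn_eg (hC : CylStat m T G h ν P) (hw : KMS.Ref T w) {A : Set E}
    (hA : MeasurableSet A) (hA1 : ∀ y ∈ A, ‖fderiv ℝ w y‖ ≤ 1) : IntegrableOn (eg T w P) A ν := by
  haveI := hC.fin
  refine Integrable.mono' (integrable_const (4 * (m:ℝ))) (aesm_eg hC hw).restrict ?_
  rw [ae_restrict_iff' hA]
  filter_upwards [eg_le_ae (w := w) hC] with y hy hyA
  rw [Real.norm_of_nonneg (eg_nonneg T w P y)]
  exact hy (hA1 y hyA)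

lemma integrableOn_sqrt_eg (hC : CylStat m T G h ν P) (hw : KMS.Ref T w) {A : Set E}
    (hA : MeasurableSet A) (hA1 : ∀ y ∈ A, ‖fderiv ℝ w y‖ ≤ 1) :
    IntegrableOn (fun y => √(eg T w P y)) A ν := by
  haveI := hC.fin
  refine Integrable.mono' (integrable_const (√(4 * (m:ℝ))))
    ((Real.continuous_sqrt.comp_aestronglyMeasurable (aesm_eg hC hw)).restrict) ?_
  rw [ae_restrict_iff' hA]
  filter_upwards [eg_le_ae (w := w) hC] with y hy hyA
  rw [Real.norm_of_nonneg (Real.sqrt_nonneg _)]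
  exact Real.sqrt_le_sqrt (hy (hA1 y hyA))

/-- planar tilt from the relative energy -/
lemma tilt_le_eg (hC : CylStat m T G h ν P) (hw : KMS.Ref T w) :
    ∀ᵐ y ∂ν, INT.tilt P T y ^ 2 ≤ 4 * m * ‖fderiv ℝ w y‖ ^ 2 + 4 * eg T w P y := by
  filter_upwards [hC.proj] with y hy
  obtain ⟨L, hL, hPL⟩ := hy
  unfold eg INT.tilt
  rw [hPL]
  have h0 : 0 ≤ 2 * FV.tilt T L.starProjection := by
    have := FV.tilt_nonneg L T; linarith
  have h1 : ‖L.starProjection - T.starProjection‖ ≤ √(2 * FV.tilt T L.starProjection) := by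
    refine ContinuousLinearMap.opNorm_le_bound _ (Real.sqrt_nonneg _) fun v => ?_
    have h2 := FV.norm_sq_sub_le L T (hL.trans hC.dimT.symm) v
    rw [ContinuousLinearMap.sub_apply]
    refine (pow_le_pow_iff_left₀ (norm_nonneg _) (by positivity) (two_ne_zero)).1 ?_
    rw [mul_pow, Real.sq_sqrt h0]
    exact h2
  have h2 : ‖L.starProjection - T.starProjection‖ ^ 2 ≤ 2 * FV.tilt T L.starProjection := by
    calc _ ≤ √(2 * FV.tilt T L.starProjection) ^ 2 := by gcongr
      _ = _ := Real.sq_sqrt h0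
  have h3 := tilt_le_ew (hw.slope y) L
  rw [hL] at h3
  linarith

/-- **(INT-W) for one window.** -/
theorem intW_win (E : Type*) [NormedAddCommGroup E] [InnerProductSpace ℝ E]
    [FiniteDimensional ℝ E] [MeasurableSpace E] [BorelSpace E] (m Q : ℕ) :
    ∃ δ c C : ℝ, 0 < δ ∧ 0 < c ∧ c ≤ 1 ∧ 0 < C ∧ ∀ (T : Submodule ℝ E) (G : Set E) (h : ℝ)
      (ν : Measure E) (P : E → E →L[ℝ] E) (S : Set E) (θ : E → ℕ) (z : E) (r : ℝ),
      INT.Win m Q δ T G h ν P S θ (fun y => jac (proj T) (P y)) z r →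
      ∀ w : E → E, KMS.Ref T w → (∀ y ∈ INT.cyl T z (2 * r), ‖fderiv ℝ w y‖ ≤ c) →
      ∀ (ψ : E → ℝ) (M : ℝ), Measurable ψ → (∀ x ∈ T, |ψ x| ≤ M) →
      (∀ x ∈ T, x ∉ ball z r → ψ x = 0) →
      |∫ y, ψ (T.starProjection y) ∂ν - Q * ∫ x in (T : Set E), ψ x * ar (fderiv ℝ w x) ∂μH[m]|
        ≤ C * M * ∫ y in INT.cyl T z (2 * r), (eg T w P y + √(eg T w P y)) ∂ν := by
  obtain ⟨δ₁, hδ₁, HS⟩ := INT.sheetsEq (E := E) m Q
  obtain ⟨δ₂, C₂, hδ₂, hC₂, HB⟩ := INT.bad_le_main (E := E) m Q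
  set δ : ℝ := min δ₁ δ₂ with hδ
  have hδ0 : 0 < δ := lt_min hδ₁ hδ₂
  have hd1 : δ ≤ δ₁ := min_le_left _ _
  have hd2 : δ ≤ δ₂ := min_le_right _ _
  set c : ℝ := min 1 (δ / (C₂ * (4 * m) + 1)) with hc
  have hc0 : 0 < c := lt_min one_pos (by positivity)
  have hc1 : c ≤ 1 := min_le_left _ _
  have hc2 : C₂ * (4 * m * c ^ 2) ≤ δ := by
    have h1 : c ≤ δ / (C₂ * (4 * m) + 1) := min_le_right _ _
    rw [le_div_iff₀ (by positivity)] at h1
    have h2 : c ^ 2 ≤ c := by nlinarith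
    calc C₂ * (4 * m * c ^ 2) ≤ C₂ * (4 * m * c) := by gcongr
      _ ≤ c * (C₂ * (4 * m) + 1) := by nlinarith
      _ ≤ δ := h1
  have harc := arC_pos m
  have hjac := jaC_nonneg m
  refine ⟨δ, c, arC m * (jaC m + (Q + 1) * (C₂ / δ * 4) + 1), hδ0, hc0, hc1, by positivity, ?_⟩
  intro T G h ν P S θ z r hW w hw hwc ψ M hψ hM hψ0
  have hI := hW.int
  have hC := hI.stat
  haveI := hC.fin
  have hr := hW.pos
  have hpz : T.starProjection z = z := Submodule.starProjection_eq_self_iff.2 hW.mem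
  have hM0 : 0 ≤ M := (abs_nonneg _).trans (hM 0 T.zero_mem)
  set B : Set E := INT.cyl T z r with hB
  set A : Set E := INT.cyl T z (2 * r) with hA
  set X : Set E := INT.goodSet m T ν P z r δ with hX
  have hBm : MeasurableSet B := INTM.isOpen_cyl.measurableSet
  have hAm : MeasurableSet A := INTM.isOpen_cyl.measurableSet
  have hBA : B ⊆ A := INTM.cyl_mono (by linarith)
  have hXm : MeasurableSet X := INT.measurableSet_goodSet hI.loc
  have hpre : T.starProjection ⁻¹' B = B := by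
    ext y; simp only [hB, INT.cyl, mem_preimage, star_self]
  have hwB : WRef T w B := wref_of hw fun y hy => by
    refine (hwc y ?_).trans hc1
    rw [← mem_preimage, hpre] at hy
    exact hBA hy
  -- energy
  have hei : IntegrableOn (eg T w P) A ν :=
    integrableOn_eg hC hw hAm fun y hy => (hwc y hy).trans hc1
  have hsi : IntegrableOn (fun y => √(eg T w P y)) A ν :=
    integrableOn_sqrt_eg hC hw hAm fun y hy => (hwc y hy).trans hc1
  have htilt : ∀ᵐ y ∂ν, y ∈ A → INT.tilt P T y ^ 2 ≤ 4 * m * c ^ 2 + 4 * eg T w P y := by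
    filter_upwards [tilt_le_eg hC hw] with y hy hyA
    refine hy.trans ?_
    have := hwc y hyA
    gcongr
  have hWδ₂ := hW.mono hd2
  have hbad := HB T G h ν P S θ _ z r hWδ₂ δ (4 * m * c ^ 2) (fun y => 4 * eg T w P y) hδ0 hd2 hc2
    (fun y => mul_nonneg (by norm_num) (eg_nonneg T w P y)) (hei.const_mul 4) htilt
  rw [integral_const_mul] at hbad
  set I := ∫ y in A, eg T w P y ∂ν with hIdef
  have hI0 : 0 ≤ I := integral_nonneg fun y => eg_nonneg T w P y
  set b := C₂ / δ * (4 * I) with hb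
  have hb0 : 0 ≤ b := by positivity
  have hBX : (T : Set E) ∩ (B \ X) ⊆ ((T : Set E) ∩ ball z r) \ X := by
    rintro x ⟨hxT, hxB, hxX⟩
    refine ⟨⟨hxT, ?_⟩, hxX⟩
    have h1 : T.starProjection x = x := Submodule.starProjection_eq_self_iff.2 hxT
    have h2 : T.starProjection x ∈ ball (T.starProjection z) r := hxB
    rwa [h1, hpz] at h2
  have hBX2 : T.starProjection ⁻¹' (B \ X) ⊆ T.starProjection ⁻¹' (ball z r \ X) := by
    rintro y ⟨hyB, hyX⟩
    refine ⟨?_, hyX⟩
    have h2 : T.starProjection (T.starProjection y) ∈ ball (T.starProjection z) r := hyB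
    rwa [star_self, hpz] at h2
  have hb1 : (μH[m].restrict (T : Set E)).real (B \ X) ≤ b := by
    have h1 : (μH[m].restrict (T : Set E)) (B \ X) ≤ ENNReal.ofReal b := by
      rw [Measure.restrict_apply (hBm.diff hXm), inter_comm]
      exact (measure_mono hBX).trans (le_trans (le_add_right le_rfl) hbad)
    exact ENNReal.toReal_le_of_le_ofReal hb0 h1
  have hb2 : ν.real (T.starProjection ⁻¹' (B \ X)) ≤ b := by
    have h1 : ν (T.starProjection ⁻¹' (B \ X)) ≤ ENNReal.ofReal b :=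
      (measure_mono hBX2).trans (le_trans (le_add_left le_rfl) hbad)
    exact ENNReal.toReal_le_of_le_ofReal hb0 h1
  have hBf : (μH[m].restrict (T : Set E)) B ≠ ⊤ := by
    rw [Measure.restrict_apply hBm]
    refine ne_top_of_le_ne_top ?_ (measure_mono (t := closedBall z r ∩ (T : Set E)) ?_)
    · have h1 := INTM.lam_closedBall_le (E := E) hC.dimT hW.mem hr
      rw [Measure.restrict_apply isClosed_closedBall.measurableSet] at h1
      exact ne_top_of_le_ne_top ENNReal.ofReal_ne_top h1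
    · rintro x ⟨hxB, hxT⟩
      refine ⟨ball_subset_closedBall ?_, hxT⟩
      have h1 : T.starProjection x = x := Submodule.starProjection_eq_self_iff.2 hxT
      have h2 : T.starProjection x ∈ ball (T.starProjection z) r := hxB
      rwa [h1, hpz] at h2
  have hN : ∀ᵐ x ∂(μH[m].restrict (T : Set E)), x ∈ B → x ∈ X → INT.sheets T S θ univ x = Q := by
    have h1 := HS T G h ν P S θ _ z r (hW.mono hd1)
    have hsub : INT.goodSet m T ν P z r δ₁ ⊆ (T : Set E) := INT.goodSet_subset_T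
    have hXX : X ⊆ INT.goodSet m T ν P z r δ₁ := fun x hx =>
      ⟨hx.1, hx.2.1, fun s hs hsr => (hx.2.2 s hs hsr).trans hd1⟩
    have hm1 : MeasurableSet (INT.goodSet m T ν P z r δ₁) := INT.measurableSet_goodSet hI.loc
    rw [ae_restrict_iff' hm1] at h1
    refine ae_restrict_of_ae ?_
    filter_upwards [h1] with x hx _ hxX using hx (hXX hxX)
  have key := intW_abs hI (Q := Q) hwB hBm hXm hBf hN hb1 hb2
    (ψ := fun x => ψ (T.starProjection x)) (M := M)
    (hψ.comp T.starProjection.continuous.measurable)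
    (fun x => hM _ (Submodule.starProjection_apply_mem _ _))
    (fun x hx => hψ0 _ (Submodule.starProjection_apply_mem _ _) (by
      intro hx'
      exact hx (by
        show T.starProjection x ∈ ball (T.starProjection z) r
        rwa [hpz])))
  have e0 : (fun y => ψ (T.starProjection (T.starProjection y)))
      = fun y => ψ (T.starProjection y) := by funext y; rw [star_self]
  rw [e0] at key
  have e1 : ∫ x in (T : Set E), ψ (T.starProjection x) * ar (fderiv ℝ w x) ∂μH[m]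
      = ∫ x in (T : Set E), ψ x * ar (fderiv ℝ w x) ∂μH[m] := by
    refine setIntegral_congr_fun T.closed_of_finiteDimensional.measurableSet fun x hx => ?_
    rw [Submodule.starProjection_eq_self_iff.2 hx]
  rw [e1] at key
  refine key.trans ?_
  have e2 : ∫ y in T.starProjection ⁻¹' B, √(ew T (fderiv ℝ w y) (P y)) ∂ν
      ≤ ∫ y in A, √(eg T w P y) ∂ν := by
    rw [hpre]
    exact setIntegral_mono_set hsi (Eventually.of_forall fun y => Real.sqrt_nonneg _)
      hBA.eventuallyLE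
  set I2 := ∫ y in A, √(eg T w P y) ∂ν with hI2
  have hI20 : 0 ≤ I2 := integral_nonneg fun y => Real.sqrt_nonneg _
  have e3 : ∫ y in A, (eg T w P y + √(eg T w P y)) ∂ν = I + I2 := integral_add hei hsi
  rw [e3]
  calc arC m * M * (jaC m * ∫ y in T.starProjection ⁻¹' B, √(ew T (fderiv ℝ w y) (P y)) ∂ν
        + (Q + 1) * b)
      ≤ arC m * M * (jaC m * I2 + (Q + 1) * b) := by gcongr
    _ ≤ arC m * M * ((jaC m + (Q + 1) * (C₂ / δ * 4) + 1) * (I + I2)) := by
        rw [hb]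
        have h1 : 0 ≤ (Q + 1) * (C₂ / δ * 4) * I2 := by positivity
        have h2 : 0 ≤ jaC m * I := by positivity
        have h3 : jaC m * I2 + (Q + 1) * (C₂ / δ * (4 * I))
            ≤ (jaC m + (Q + 1) * (C₂ / δ * 4) + 1) * (I + I2) := by nlinarith
        gcongr
    _ = _ := by ring

lemma ar_fderiv (w : E → E) (y : E) : ar (fderiv ℝ w y) = FM.areaEl w y := rfl

/-- **(INT-W) for one window**, in terms of `gsq` and `areaEl` -/
theorem intW_win' (E : Type*) [NormedAddCommGroup E] [InnerProductSpace ℝ E]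
    [FiniteDimensional ℝ E] [MeasurableSpace E] [BorelSpace E] (m Q : ℕ) :
    ∃ δ c C : ℝ, 0 < δ ∧ 0 < c ∧ c ≤ 1 ∧ 0 < C ∧ ∀ (T : Submodule ℝ E) (G : Set E) (h : ℝ)
      (ν : Measure E) (P : E → E →L[ℝ] E) (S : Set E) (θ : E → ℕ) (z : E) (r : ℝ),
      INT.Win m Q δ T G h ν P S θ (fun y => jac (proj T) (P y)) z r →
      ∀ w : E → E, KMS.Ref T w → (∀ y ∈ INT.cyl T z (2 * r), ‖fderiv ℝ w y‖ ≤ c) →
      ∀ (ψ : E → ℝ) (M : ℝ), Measurable ψ → (∀ x ∈ T, |ψ x| ≤ M) →
      (∀ x ∈ T, x ∉ ball z r → ψ x = 0) →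
      |∫ y, ψ (T.starProjection y) ∂ν - Q * ∫ x in (T : Set E), ψ x * FM.areaEl w x ∂μH[m]|
        ≤ C * M * ∫ y in INT.cyl T z (2 * r), (gsq (rel T w) (P y) y
          + √(gsq (rel T w) (P y) y)) ∂ν := by
  obtain ⟨δ, c, C, hδ, hc, hc1, hC, H⟩ := intW_win E m Q
  refine ⟨δ, c, C, hδ, hc, hc1, hC, ?_⟩
  intro T G h ν P S θ z r hW w hw hwc ψ M hψ hM hψ0
  have key := H T G h ν P S θ z r hW w hw hwc ψ M hψ hM hψ0
  have e1 : ∫ y in INT.cyl T z (2 * r), (eg T w P y + √(eg T w P y)) ∂ν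
      = ∫ y in INT.cyl T z (2 * r), (gsq (rel T w) (P y) y + √(gsq (rel T w) (P y) y)) ∂ν := by
    refine integral_congr_ae (ae_restrict_of_ae ?_)
    filter_upwards [eg_eq_ae hW.int.stat hw] with y hy
    rw [hy]
  rw [e1] at key
  exact key

end Vale.Agent.P214.INTW
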